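import Mathlib

/-!
Pointwise real algebra for the pieces of T1 (P205): Gram determinants in `ℝ⁴` and the nine
integer directions.
-/

namespace Vale.Agent.P205.PC

/-- the inner product of `ℝ⁴` -/
def dR (x y : Fin 4 → ℝ) : ℝ := ∑ i, x i * y i

/-- the Gram determinant of three vectors -/
def gR (x y z : Fin 4 → ℝ) : ℝ :=
  dR x x * (dR y y * dR z z - dR y z * dR y z)
    - dR x y * (dR x y * dR z z - dR y z * dR x z)
    + dR x z * (dR x y * dR y z - dR y y * dR x z)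

/-- a `3 × 3` minor -/
def mi (i j k : Fin 4) (x y z : Fin 4 → ℝ) : ℝ :=
  x i * (y j * z k - y k * z j) - x j * (y i * z k - y k * z i) + x k * (y i * z j - y j * z i)

/-- the four minors -/
def M (m : Fin 4) (x y z : Fin 4 → ℝ) : ℝ :=
  match m with
  | 0 => mi 1 2 3 x y z
  | 1 => mi 0 2 3 x y z
  | 2 => mi 0 1 3 x y z
  | 3 => mi 0 1 2 x y z

theorem gR_eq (x y z : Fin 4 → ℝ) : gR x y z = ∑ m, M m x y z ^ 2 := by
  simp only [gR, dR, M, mi, Fin.sum_univ_four]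
  ring

theorem M_fst (m : Fin 4) (x y : Fin 4 → ℝ) : M m x y x = 0 := by
  fin_cases m <;> simp only [M, mi] <;> ring

theorem M_snd (m : Fin 4) (x y : Fin 4 → ℝ) : M m x y y = 0 := by
  fin_cases m <;> simp only [M, mi] <;> ring

theorem M_add (m : Fin 4) (x y z z' : Fin 4 → ℝ) : M m x y (z + z') = M m x y z + M m x y z' := by
  fin_cases m <;> simp only [M, mi, Pi.add_apply] <;> ring

theorem M_smul (m : Fin 4) (x y z : Fin 4 → ℝ) (c : ℝ) : M m x y (c • z) = c * M m x y z := by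
  fin_cases m <;> simp only [M, mi, Pi.smul_apply, smul_eq_mul] <;> ring

theorem M_sum {α : Type*} (s : Finset α) (m : Fin 4) (x y : Fin 4 → ℝ) (f : α → Fin 4 → ℝ) :
    M m x y (∑ a ∈ s, f a) = ∑ a ∈ s, M m x y (f a) := by
  classical
  induction s using Finset.induction_on with
  | empty =>
    have := M_smul m x y 0 0
    simpa using this
  | insert a s ha ih => rw [Finset.sum_insert ha, Finset.sum_insert ha, M_add, ih]

theorem M_comb (m : Fin 4) (x y z : Fin 4 → ℝ) (a b c d : ℝ) :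
    M m (a • x + b • y) (c • x + d • y) z = (a * d - b * c) * M m x y z := by
  fin_cases m <;> simp only [M, mi, Pi.add_apply, Pi.smul_apply, smul_eq_mul] <;> ring

theorem gR_nonneg (x y z : Fin 4 → ℝ) : 0 ≤ gR x y z := by
  rw [gR_eq]; positivity

theorem gR_comb (x y z : Fin 4 → ℝ) (a b c d : ℝ) :
    gR (a • x + b • y) (c • x + d • y) z = (a * d - b * c) ^ 2 * gR x y z := by
  rw [gR_eq, gR_eq, Finset.mul_sum]
  refine Finset.sum_congr rfl fun m _ => ?_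
  rw [M_comb]; ring

theorem abs_M_le_of_gR {x y z : Fin 4 → ℝ} {σ : ℝ} (hσ : 0 ≤ σ) (h : gR x y z ≤ σ ^ 2)
    (m : Fin 4) : |M m x y z| ≤ σ := by
  rw [gR_eq] at h
  have h1 : M m x y z ^ 2 ≤ σ ^ 2 :=
    (Finset.single_le_sum (f := fun m => M m x y z ^ 2) (fun i _ => sq_nonneg _)
      (Finset.mem_univ m)).trans h
  exact abs_le_of_sq_le_sq h1 hσ

theorem gR_le_of_abs_M {x y z : Fin 4 → ℝ} {σ : ℝ} (h : ∀ m, |M m x y z| ≤ σ) :
    gR x y z ≤ 4 * σ ^ 2 := by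
  rw [gR_eq]
  have : ∀ m ∈ (Finset.univ : Finset (Fin 4)), M m x y z ^ 2 ≤ σ ^ 2 := fun m _ => by
    have := h m
    have h0 := abs_nonneg (M m x y z)
    rw [← sq_abs]
    exact pow_le_pow_left₀ h0 this 2
  have h2 := Finset.sum_le_card_nsmul Finset.univ _ _ this
  simpa using h2

/-- crude bound of a minor -/
theorem abs_M_le {x y z : Fin 4 → ℝ} {a b c : ℝ} (hx : ∀ i, |x i| ≤ a) (hy : ∀ i, |y i| ≤ b)
    (hz : ∀ i, |z i| ≤ c) (m : Fin 4) : |M m x y z| ≤ 6 * (a * b * c) := by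
  have ha : 0 ≤ a := (abs_nonneg _).trans (hx 0)
  have hb : 0 ≤ b := (abs_nonneg _).trans (hy 0)
  have hc : 0 ≤ c := (abs_nonneg _).trans (hz 0)
  have key : ∀ i j k, |x i * y j * z k| ≤ a * b * c := fun i j k => by
    rw [abs_mul, abs_mul]
    exact mul_le_mul (mul_le_mul (hx i) (hy j) (abs_nonneg _) ha) (hz k) (abs_nonneg _)
      (mul_nonneg ha hb)
  have hm : ∀ i j k, |mi i j k x y z| ≤ 6 * (a * b * c) := fun i j k => by
    have e : mi i j k x y z = x i * y j * z k - x i * y k * z j - x j * y i * z k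
      + x j * y k * z i + x k * y i * z j - x k * y j * z i := by simp only [mi]; ring
    rw [e]
    have h1 := abs_le.mp (key i j k)
    have h2 := abs_le.mp (key i k j)
    have h3 := abs_le.mp (key j i k)
    have h4 := abs_le.mp (key j k i)
    have h5 := abs_le.mp (key k i j)
    have h6 := abs_le.mp (key k j i)
    rw [abs_le]
    constructor <;> linarith [h1.1, h1.2, h2.1, h2.2, h3.1, h3.2, h4.1, h4.2, h5.1, h5.2, h6.1,
      h6.2]
  fin_cases m <;> exact hm _ _ _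

/-! ### the nine directions -/

/-- the nine covectors, in three triples -/
def dz : Fin 3 → Fin 3 → Fin 2 → ℤ :=
  ![![![1, 0], ![1, 2], ![1, -2]], ![![0, 1], ![2, 1], ![2, -1]],
    ![![1, 1], ![-1, 3], ![3, -1]]]

/-- the nine covectors, real -/
noncomputable def dl (τ r : Fin 3) (i : Fin 2) : ℝ := (dz τ r i : ℝ)

/-- coefficient functionals of the triples -/
noncomputable def lc : Fin 3 → Fin 3 → Fin 2 → Fin 2 → ℝ :=
  ![![![![1, 0], ![0, -1 / 4]], ![![0, 1 / 8], ![1 / 8, 1 / 8]], ![![0, -1 / 8], ![-1 / 8, 1 / 8]]],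
    ![![![-1 / 4, 0], ![0, 1]], ![![1 / 8, 1 / 8], ![1 / 8, 0]], ![![1 / 8, -1 / 8], ![-1 / 8, 0]]],
    ![![![3 / 16, 5 / 16], ![5 / 16, 3 / 16]], ![![-1 / 32, -1 / 32], ![-1 / 32, 3 / 32]],
      ![![3 / 32, -1 / 32], ![-1 / 32, -1 / 32]]]]

/-- coefficient of the `r`-th covector of the triple `τ` in `T` -/
noncomputable def lam (τ r : Fin 3) (T : Fin 2 → Fin 2 → ℝ) : ℝ := ∑ i, ∑ j, lc τ r i j * T i j

theorem lam_dec (τ : Fin 3) (T : Fin 2 → Fin 2 → ℝ) (hT : T 1 0 = T 0 1) (i j : Fin 2) :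
    T i j = ∑ r, lam τ r T * (dl τ r i * dl τ r j) := by
  fin_cases τ <;> fin_cases i <;> fin_cases j <;>
    simp [lam, lc, dl, dz, Fin.sum_univ_three, Fin.sum_univ_two, hT] <;> ring

theorem lam_ge (τ r : Fin 3) (T : Fin 2 → Fin 2 → ℝ)
    (h : ∀ i j, |T i j - (if i = j then 1 else 0)| ≤ 1 / 100) : 1 / 20 ≤ lam τ r T := by
  have h00 := abs_le.mp (h 0 0)
  have h01 := abs_le.mp (h 0 1)
  have h10 := abs_le.mp (h 1 0)
  have h11 := abs_le.mp (h 1 1)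
  simp only [if_true, Fin.zero_eq_one_iff, Fin.one_eq_zero_iff] at h00 h01 h10 h11
  norm_num at h00 h01 h10 h11
  fin_cases τ <;> fin_cases r <;>
    simp [lam, lc, Fin.sum_univ_two] <;> linarith [h00.1, h00.2, h01.1, h01.2, h10.1, h10.2,
      h11.1, h11.2]

theorem dl_sq (τ r : Fin 3) : 1 ≤ dl τ r 0 ^ 2 + dl τ r 1 ^ 2 := by
  fin_cases τ <;> fin_cases r <;> simp [dl, dz]

theorem dl_abs (τ r : Fin 3) (i : Fin 2) : |dl τ r i| ≤ 3 := by
  fin_cases τ <;> fin_cases r <;> fin_cases i <;> simp [dl, dz] <;> norm_num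

/-- three directions, one of each triple, determine a binary quadratic form -/
theorem three_dir (r : Fin 3 → Fin 3) (a b c σ : ℝ)
    (h : ∀ τ, |dl τ (r τ) 1 ^ 2 * a - dl τ (r τ) 0 * dl τ (r τ) 1 * b
      + dl τ (r τ) 0 ^ 2 * c| ≤ σ) : |a| ≤ 11 * σ ∧ |b| ≤ 11 * σ ∧ |c| ≤ 11 * σ := by
  have h0 := abs_le.mp (h 0)
  have h1 := abs_le.mp (h 1)
  have h2 := abs_le.mp (h 2)
  simp only [abs_le]
  generalize r 0 = r0 at h0
  generalize r 1 = r1 at h1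
  generalize r 2 = r2 at h2
  clear h r
  fin_cases r0 <;> fin_cases r1 <;> fin_cases r2 <;>
    simp [dl, dz] at h0 h1 h2 <;> norm_num at h0 h1 h2 <;>
    obtain ⟨h0a, h0b⟩ := h0 <;> obtain ⟨h1a, h1b⟩ := h1 <;> obtain ⟨h2a, h2b⟩ := h2 <;>
    refine ⟨⟨?_, ?_⟩, ⟨?_, ?_⟩, ⟨?_, ?_⟩⟩ <;> linarith

/-- the second derivative along the kernel direction of the covector `ℓ` -/
def vv (Y : Fin 2 → Fin 2 → Fin 4 → ℝ) (l : Fin 2 → ℝ) : Fin 4 → ℝ :=
  l 1 ^ 2 • Y 0 0 - (l 0 * l 1) • (Y 0 1 + Y 1 0) + l 0 ^ 2 • Y 1 1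

theorem M_vv (m : Fin 4) (x y : Fin 4 → ℝ) (Y : Fin 2 → Fin 2 → Fin 4 → ℝ) (l : Fin 2 → ℝ) :
    M m x y (vv Y l) = l 1 ^ 2 * M m x y (Y 0 0)
      - l 0 * l 1 * (M m x y (Y 0 1) + M m x y (Y 1 0)) + l 0 ^ 2 * M m x y (Y 1 1) := by
  rw [vv, sub_eq_add_neg, ← neg_smul, M_add, M_add, M_smul, M_smul, M_smul, M_add]
  ring

theorem key_M {x y : Fin 4 → ℝ} {Y : Fin 2 → Fin 2 → Fin 4 → ℝ} (hY : Y 1 0 = Y 0 1)
    {σ : ℝ} (hσ : 0 ≤ σ) (r : Fin 3 → Fin 3)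
    (h : ∀ τ, gR x y (vv Y (dl τ (r τ))) ≤ σ ^ 2) (m : Fin 4) (a b : Fin 2) :
    |M m x y (Y a b)| ≤ 11 * σ := by
  have h1 : ∀ τ, |dl τ (r τ) 1 ^ 2 * M m x y (Y 0 0)
      - dl τ (r τ) 0 * dl τ (r τ) 1 * (M m x y (Y 0 1) + M m x y (Y 1 0))
      + dl τ (r τ) 0 ^ 2 * M m x y (Y 1 1)| ≤ σ := fun τ => by
    rw [← M_vv]
    exact abs_M_le_of_gR hσ (h τ) m
  obtain ⟨h00, h01, h11⟩ := three_dir r _ _ _ σ h1
  have h01' : |M m x y (Y 0 1)| ≤ 11 * σ := by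
    rw [hY] at h01
    have e : M m x y (Y 0 1) + M m x y (Y 0 1) = 2 * M m x y (Y 0 1) := by ring
    rw [e, abs_mul, abs_two] at h01
    have := abs_nonneg (M m x y (Y 0 1))
    linarith
  fin_cases a <;> fin_cases b
  · exact h00
  · exact h01'
  · show |M m x y (Y 1 0)| ≤ 11 * σ
    rw [hY]; exact h01'
  · exact h11

theorem key_gR {x y : Fin 4 → ℝ} {Y : Fin 2 → Fin 2 → Fin 4 → ℝ} (hY : Y 1 0 = Y 0 1)
    {σ B : ℝ} (hσ : 0 ≤ σ) (r : Fin 3 → Fin 3)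
    (h : ∀ τ, gR x y (vv Y (dl τ (r τ))) ≤ σ ^ 2)
    {A : Fin 2 → Fin 2 → ℝ} {α β a b c d : ℝ} (hA : ∀ i j, |A i j| ≤ B ^ 2)
    (ha : |a| ≤ B) (hb : |b| ≤ B) (hc : |c| ≤ B) (hd : |d| ≤ B) :
    gR (a • x + b • y) (c • x + d • y) ((∑ i, ∑ j, A i j • Y i j) + (α • x + β • y)) ≤
      30976 * B ^ 8 * σ ^ 2 := by
  have hB : 0 ≤ B := (abs_nonneg _).trans ha
  rw [gR_comb]
  have h1 : ∀ m, |M m x y ((∑ i, ∑ j, A i j • Y i j) + (α • x + β • y))| ≤ 44 * B ^ 2 * σ := by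
    intro m
    rw [M_add, M_add, M_smul, M_smul, M_fst, M_snd, mul_zero, mul_zero, add_zero, add_zero]
    simp only [Fin.sum_univ_two, M_add, M_smul]
    have hh : ∀ i j, |A i j * M m x y (Y i j)| ≤ B ^ 2 * (11 * σ) := fun i j => by
      rw [abs_mul]
      exact mul_le_mul (hA i j) (key_M hY hσ r h m i j) (abs_nonneg _) (sq_nonneg B)
    have h00 := abs_le.mp (hh 0 0)
    have h01 := abs_le.mp (hh 0 1)
    have h10 := abs_le.mp (hh 1 0)
    have h11 := abs_le.mp (hh 1 1)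
    rw [abs_le]
    constructor <;> linarith [h00.1, h00.2, h01.1, h01.2, h10.1, h10.2, h11.1, h11.2]
  have h2 := gR_le_of_abs_M h1
  have h3 : (a * d - b * c) ^ 2 ≤ (2 * B ^ 2) ^ 2 := by
    rw [← sq_abs (a * d - b * c)]
    refine pow_le_pow_left₀ (abs_nonneg _) ?_ 2
    have e1 : |a * d| ≤ B * B := by
      rw [abs_mul]; exact mul_le_mul ha hd (abs_nonneg _) hB
    have e2 : |b * c| ≤ B * B := by
      rw [abs_mul]; exact mul_le_mul hb hc (abs_nonneg _) hB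
    calc |a * d - b * c| ≤ |a * d| + |b * c| := abs_sub _ _
      _ ≤ 2 * B ^ 2 := by nlinarith
  calc (a * d - b * c) ^ 2 * gR x y ((∑ i, ∑ j, A i j • Y i j) + (α • x + β • y))
      ≤ (2 * B ^ 2) ^ 2 * (4 * (44 * B ^ 2 * σ) ^ 2) :=
        mul_le_mul h3 h2 (gR_nonneg _ _ _) (by positivity)
    _ = 30976 * B ^ 8 * σ ^ 2 := by ring

/-- perturbation of the covector -/
theorem abs_M_vv_sub {x y : Fin 4 → ℝ} {Y : Fin 2 → Fin 2 → Fin 4 → ℝ} {l n : Fin 2 → ℝ}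
    {e C : ℝ} (he : 0 ≤ e) (he1 : e ≤ 1) (hl : ∀ i, |l i| ≤ 3) (hn : ∀ i, |n i - l i| ≤ e)
    (m : Fin 4) (hC : ∀ a b, |M m x y (Y a b)| ≤ C) :
    |M m x y (vv Y n) - M m x y (vv Y l)| ≤ 28 * (e * C) := by
  have hC0 : 0 ≤ C := (abs_nonneg _).trans (hC 0 0)
  have key : ∀ i j, |n i * n j - l i * l j| ≤ 7 * e := fun i j => by
    have e1 : n i * n j - l i * l j = (n i - l i) * (n j - l j) + (n i - l i) * l j
      + l i * (n j - l j) := by ring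
    rw [e1]
    have a1 : |(n i - l i) * (n j - l j)| ≤ e * 1 := by
      rw [abs_mul]
      exact mul_le_mul (hn i) ((hn j).trans he1) (abs_nonneg _) he
    have a2 : |(n i - l i) * l j| ≤ e * 3 := by
      rw [abs_mul]; exact mul_le_mul (hn i) (hl j) (abs_nonneg _) he
    have a3 : |l i * (n j - l j)| ≤ 3 * e := by
      rw [abs_mul]; exact mul_le_mul (hl i) (hn j) (abs_nonneg _) (by norm_num)
    have b1 := abs_add_three ((n i - l i) * (n j - l j)) ((n i - l i) * l j) (l i * (n j - l j))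
    linarith
  rw [M_vv, M_vv]
  have e2 : n 1 ^ 2 * M m x y (Y 0 0) - n 0 * n 1 * (M m x y (Y 0 1) + M m x y (Y 1 0))
      + n 0 ^ 2 * M m x y (Y 1 1) - (l 1 ^ 2 * M m x y (Y 0 0)
      - l 0 * l 1 * (M m x y (Y 0 1) + M m x y (Y 1 0)) + l 0 ^ 2 * M m x y (Y 1 1)) =
      (n 1 * n 1 - l 1 * l 1) * M m x y (Y 0 0) - (n 0 * n 1 - l 0 * l 1) * M m x y (Y 0 1)
        - (n 0 * n 1 - l 0 * l 1) * M m x y (Y 1 0)
        + (n 0 * n 0 - l 0 * l 0) * M m x y (Y 1 1) := by ring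
  rw [e2]
  have hh : ∀ i j a b, |(n i * n j - l i * l j) * M m x y (Y a b)| ≤ 7 * e * C :=
    fun i j a b => by
      rw [abs_mul]
      exact mul_le_mul (key i j) (hC a b) (abs_nonneg _) (by positivity)
  have h1 := abs_le.mp (hh 1 1 0 0)
  have h2 := abs_le.mp (hh 0 1 0 1)
  have h3 := abs_le.mp (hh 0 1 1 0)
  have h4 := abs_le.mp (hh 0 0 1 1)
  rw [abs_le]
  constructor <;> linarith [h1.1, h1.2, h2.1, h2.2, h3.1, h3.2, h4.1, h4.2]

/-- stability of the lower bound under a perturbation of the covector -/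
theorem gR_vv_stable {x y : Fin 4 → ℝ} {Y : Fin 2 → Fin 2 → Fin 4 → ℝ} {l n : Fin 2 → ℝ}
    {e C s : ℝ} (he : 0 ≤ e) (he1 : e ≤ 1) (hl : ∀ i, |l i| ≤ 3) (hn : ∀ i, |n i - l i| ≤ e)
    (hC : ∀ m a b, |M m x y (Y a b)| ≤ C) (hs : 0 ≤ s) (hg : s ^ 2 ≤ gR x y (vv Y l))
    (hsm : 112 * (e * C) ≤ s) : s ^ 2 / 16 ≤ gR x y (vv Y n) := by
  rw [gR_eq] at hg
  have h1 : ∃ m, s / 2 ≤ |M m x y (vv Y l)| := by
    by_contra hc
    push Not at hc
    have h2 : ∀ m ∈ (Finset.univ : Finset (Fin 4)), M m x y (vv Y l) ^ 2 ≤ s ^ 2 / 4 ∧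
        (M m x y (vv Y l) ^ 2 < s ^ 2 / 4) := fun m _ => by
      have h3 := hc m
      have h4 := abs_nonneg (M m x y (vv Y l))
      rw [← sq_abs]
      constructor <;> nlinarith
    have h5 : ∑ m, M m x y (vv Y l) ^ 2 < ∑ _m : Fin 4, s ^ 2 / 4 :=
      Finset.sum_lt_sum (fun m hm => (h2 m hm).1) ⟨0, Finset.mem_univ _, (h2 0 (Finset.mem_univ _)).2⟩
    simp at h5
    linarith
  obtain ⟨m, hm⟩ := h1
  have h2 := abs_M_vv_sub he he1 hl hn m (hC m)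
  have h3 : s / 4 ≤ |M m x y (vv Y n)| := by
    have h4 : |M m x y (vv Y l)| - |M m x y (vv Y n) - M m x y (vv Y l)| ≤
        |M m x y (vv Y n)| := by
      have h5 := abs_sub_abs_le_abs_sub (M m x y (vv Y l)) (M m x y (vv Y n))
      rw [abs_sub_comm] at h5
      linarith
    linarith
  rw [gR_eq]
  have h6 : (s / 4) ^ 2 ≤ M m x y (vv Y n) ^ 2 := by
    rw [← sq_abs (M m x y (vv Y n))]
    exact pow_le_pow_left₀ (by positivity) h3 2
  calc s ^ 2 / 16 = (s / 4) ^ 2 := by ring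
    _ ≤ M m x y (vv Y n) ^ 2 := h6
    _ ≤ _ := Finset.single_le_sum (f := fun m => M m x y (vv Y n) ^ 2)
        (fun i _ => sq_nonneg _) (Finset.mem_univ m)

end Vale.Agent.P205.PC
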