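import Vale.Agent.P205.F.Calc1

/-!
Compositions with smooth functions of one variable (P205, full question, block PC).
-/

noncomputable section

open scoped ContDiff
open Set Filter

namespace Vale.Agent.P205.F

variable {P κ : Type*} {S : DAlg P κ} {ι : Type*} {μ : ι → ℝ}

/-- all derivatives of a smooth function are bounded -/
theorem DAlg.exists_nb [Finite κ] (k : ℕ) {u : P → ℂ} (hu : S.Sm u) :
    ∃ C : ℝ, 0 ≤ C ∧ S.Nb k C u := by
  cases nonempty_fintype κ
  induction k generalizing u with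
  | zero =>
    obtain ⟨C, hC⟩ := S.bdd hu
    refine ⟨|C|, abs_nonneg C, fun w hw p => ?_⟩
    have h0 : w = [] := List.length_eq_zero_iff.1 (Nat.le_zero.1 hw)
    subst h0
    exact (hC p).trans (le_abs_self C)
  | succ k ih =>
    obtain ⟨C, hC⟩ := S.bdd hu
    choose B hB hB' using fun j => ih (S.sm_D j hu)
    refine ⟨|C| + ∑ j, B j, add_nonneg (abs_nonneg C) (Finset.sum_nonneg fun j _ => hB j),
      fun w hw p => ?_⟩
    rcases List.eq_nil_or_concat w with rfl | ⟨w', j, rfl⟩
    · exact ((hC p).trans (le_abs_self C)).trans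
        (le_add_of_nonneg_right (Finset.sum_nonneg fun j _ => hB j))
    · rw [List.concat_eq_append] at hw ⊢
      have hw' : w'.length ≤ k := by simpa using hw
      rw [S.wd_snoc]
      exact (hB' j w' hw' p).trans ((Finset.single_le_sum (fun j _ => hB j)
        (Finset.mem_univ j)).trans (le_add_of_nonneg_left (abs_nonneg C)))

/-- a fixed smooth function is `O(1)` at every scale `μ ≥ 1` -/
theorem DAlg.FO.fixed [Finite κ] {u : P → ℂ} (hμ : ∀ i, 1 ≤ μ i) (hu : S.Sm u) :
    S.FO μ (fun _ => 1) (fun _ : ι => u) := by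
  refine ⟨fun _ => hu, fun k => ?_⟩
  obtain ⟨C, hC, h⟩ := DAlg.exists_nb k hu
  refine ⟨C, hC, fun i w hw p => ?_⟩
  rw [mul_one]
  exact (h w hw p).trans (le_mul_of_one_le_right hC (one_le_pow₀ (hμ i)))

theorem contDiff_deriv' {F : ℝ → ℂ} (hF : ContDiff ℝ ∞ F) : ContDiff ℝ ∞ (deriv F) := by
  have h2 := hF
  rw [show (∞ : WithTop ℕ∞) = ∞ + 1 from rfl] at h2
  exact (contDiff_succ_iff_deriv.1 h2).2.2

/-- smooth functions of a bounded real family (compact range) -/
theorem DAlg.FO.compc {F : ℝ → ℂ} (hF : ContDiff ℝ ∞ F) {u : ι → P → ℂ} (hμ : ∀ i, 0 ≤ μ i)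
    (hu : S.FO μ (fun _ => 1) u) (hr : ∀ i, Rl (u i)) :
    S.FO μ (fun _ => 1) (fun i p => F (u i p).re) := by
  refine ⟨fun i => S.sm_comp hF (hu.1 i) (hr i), fun k => ?_⟩
  obtain ⟨B, hB, hBu⟩ := hu.apply
  have h0 : ∀ F : ℝ → ℂ, ContDiff ℝ ∞ F → ∃ C : ℝ, 0 ≤ C ∧ ∀ i p, ‖F (u i p).re‖ ≤ C := by
    intro F hF
    obtain ⟨M, hM⟩ := isCompact_Icc.exists_bound_of_continuousOn (s := Icc (-B) B)
      (f := F) hF.continuous.continuousOn
    refine ⟨|M|, abs_nonneg M, fun i p => (hM _ (abs_le.1 ?_)).trans (le_abs_self M)⟩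
    have := hBu i p
    rw [mul_one] at this
    exact (Complex.abs_re_le_norm _).trans this
  induction k generalizing F with
  | zero =>
    obtain ⟨C, hC, h⟩ := h0 F hF
    refine ⟨C, hC, fun i w hw p => ?_⟩
    have hw0 : w = [] := List.length_eq_zero_iff.1 (Nat.le_zero.1 hw)
    subst hw0
    simpa using h i p
  | succ k ih =>
    obtain ⟨C, hC, h⟩ := h0 F hF
    obtain ⟨C1, hC1, h1⟩ := ih (contDiff_deriv' hF)
    obtain ⟨C2, hC2, h2⟩ := hu.2 (k + 1)
    refine ⟨C + 2 ^ k * (C1 * C2), by positivity, fun i w hw p => ?_⟩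
    have hm : ∀ m, 0 ≤ μ i ^ m := fun m => pow_nonneg (hμ i) m
    rcases List.eq_nil_or_concat w with rfl | ⟨w', j, rfl⟩
    · simp only [S.wd_nil, List.length_nil, pow_zero, mul_one]
      exact (h i p).trans (le_add_of_nonneg_right (by positivity))
    · rw [List.concat_eq_append] at hw ⊢
      have hw' : w'.length ≤ k := by simpa using hw
      have e1 : S.D j (fun p => F (u i p).re) = (fun p => deriv F (u i p).re) * S.D j (u i) := by
        rw [S.D_comp j hF (hu.1 i) (hr i)]
        rfl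
      have h3 := (h1 i).mul (S.sm_comp (contDiff_deriv' hF) (hu.1 i) (hr i))
        (S.sm_D j (hu.1 i)) ((h2 i).D j) w' hw' p
      rw [S.wd_snoc, e1, List.length_append, List.length_singleton, pow_succ]
      refine h3.trans ?_
      have h4 : 0 ≤ C * (μ i ^ w'.length * μ i) := mul_nonneg hC (mul_nonneg (hm _) (hμ i))
      nlinarith [h4]

/-- vanishing of order `n` outside `K` -/
def DAlg.Zn (S : DAlg P κ) (n : ℕ) (K : Set P) (u : P → ℂ) : Prop :=
  ∀ w : List κ, w.length ≤ n → ∀ p, p ∉ K → S.wd w u p = 0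

theorem DAlg.Zn.mul {n : ℕ} {K : Set P} {u v : P → ℂ} (hu : S.Sm u) (hv : S.Sm v)
    (h : S.Zn n K u) : S.Zn n K (u * v) := by
  induction n generalizing u v with
  | zero =>
    intro w hw p hp
    have h0 : w = [] := List.length_eq_zero_iff.1 (Nat.le_zero.1 hw)
    subst h0
    have := h [] le_rfl p hp
    rw [S.wd_nil] at this ⊢
    rw [Pi.mul_apply, this, zero_mul]
  | succ n ih =>
    intro w hw p hp
    rcases List.eq_nil_or_concat w with rfl | ⟨w', j, rfl⟩
    · have := h [] (Nat.zero_le _) p hp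
      rw [S.wd_nil] at this ⊢
      rw [Pi.mul_apply, this, zero_mul]
    · rw [List.concat_eq_append] at hw ⊢
      have hw' : w'.length ≤ n := by simpa using hw
      have h1 : S.Zn n K (S.D j u) := fun w hw p hp => by
        rw [← S.wd_snoc]
        exact h _ (by simpa using hw) p hp
      have h2 : S.Zn n K u := fun w hw p hp => h w (hw.trans (Nat.le_succ n)) p hp
      rw [S.wd_snoc, S.D_mul j hu hv,
        S.wd_add w' (S.sm_mul (S.sm_D j hu) hv) (S.sm_mul hu (S.sm_D j hv)), Pi.add_apply,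
        ih (S.sm_D j hu) hv h1 w' hw' p hp, ih hu (S.sm_D j hv) h2 w' hw' p hp, add_zero]

/-- compositions vanish to infinite order where all derivatives of `F` vanish -/
theorem DAlg.Zs.comp {F : ℝ → ℂ} (hF : ContDiff ℝ ∞ F) {u : P → ℂ} {K : Set P} (hu : S.Sm u)
    (hr : Rl u) (h : ∀ p, p ∉ K → ∀ n, iteratedDeriv n F (u p).re = 0) :
    S.Zs K (fun p => F (u p).re) := by
  have key : ∀ n : ℕ, ∀ F : ℝ → ℂ, ContDiff ℝ ∞ F →
      (∀ p, p ∉ K → ∀ n, iteratedDeriv n F (u p).re = 0) →
      S.Zn n K (fun p => F (u p).re) := by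
    intro n
    induction n with
    | zero =>
      intro F hF h w hw p hp
      have h0 : w = [] := List.length_eq_zero_iff.1 (Nat.le_zero.1 hw)
      subst h0
      simpa using h p hp 0
    | succ n ih =>
      intro F hF h w hw p hp
      rcases List.eq_nil_or_concat w with rfl | ⟨w', j, rfl⟩
      · simpa using h p hp 0
      · rw [List.concat_eq_append] at hw ⊢
        have hw' : w'.length ≤ n := by simpa using hw
        have e1 : S.D j (fun p => F (u p).re) = (fun p => deriv F (u p).re) * S.D j u := by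
          rw [S.D_comp j hF hu hr]
          rfl
        rw [S.wd_snoc, e1]
        refine DAlg.Zn.mul (S.sm_comp (contDiff_deriv' hF) hu hr) (S.sm_D j hu)
          (ih (deriv F) (contDiff_deriv' hF) fun p hp m => ?_) w' hw' p hp
        rw [← iteratedDeriv_succ']
        exact h p hp (m + 1)
  exact fun w p hp => key w.length F hF h w le_rfl p hp

/-! ### cut-off functions of one variable -/

/-- a smooth function vanishing on `(-∞, a]` has all derivatives zero there -/
theorem iteratedDeriv_eq_zero_of_le {F : ℝ → ℂ} (hF : ContDiff ℝ ∞ F) {a : ℝ}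
    (h : ∀ v, v ≤ a → F v = 0) {v : ℝ} (hv : v ≤ a) (n : ℕ) : iteratedDeriv n F v = 0 := by
  have hlt : ∀ v, v < a → iteratedDeriv n F v = 0 := by
    intro v hv
    have he : F =ᶠ[nhds v] fun _ => 0 := by
      filter_upwards [Iio_mem_nhds hv] with x hx
      exact h x (le_of_lt hx)
    rw [he.iteratedDeriv_eq n, iteratedDeriv_const]
    split_ifs <;> rfl
  have hc : Continuous (iteratedDeriv n F) := hF.continuous_iteratedDeriv n (by exact_mod_cast le_top)
  have hcl : IsClosed {v | iteratedDeriv n F v = 0} := isClosed_eq hc continuous_const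
  have hsub : closure (Iio a) ⊆ {v | iteratedDeriv n F v = 0} :=
    hcl.closure_subset_iff.2 fun x hx => hlt x hx
  rw [closure_Iio] at hsub
  exact hsub hv

/-- smooth step from `0` (on `v ≤ 1`) to `1` (on `v ≥ 2`) -/
def cutF (v : ℝ) : ℂ := (Real.smoothTransition (v - 1) : ℂ)

theorem contDiff_cutF : ContDiff ℝ ∞ cutF :=
  Complex.ofRealCLM.contDiff.comp
    (Real.smoothTransition.contDiff.comp (contDiff_id.sub contDiff_const))

theorem cutF_im (v : ℝ) : (cutF v).im = 0 := Complex.ofReal_im _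

theorem cutF_re (v : ℝ) : (cutF v).re = Real.smoothTransition (v - 1) := Complex.ofReal_re _

theorem cutF_eq_zero {v : ℝ} (hv : v ≤ 1) : cutF v = 0 := by
  unfold cutF
  rw [Real.smoothTransition.zero_of_nonpos (by linarith)]
  rfl

theorem cutF_zero {v : ℝ} (hv : v ≤ 1) (n : ℕ) : iteratedDeriv n cutF v = 0 :=
  iteratedDeriv_eq_zero_of_le contDiff_cutF (fun _ h => cutF_eq_zero h) hv n

theorem cutF_one {v : ℝ} (hv : 2 ≤ v) : cutF v = 1 := by
  unfold cutF
  rw [Real.smoothTransition.one_of_one_le (by linarith)]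
  rfl

theorem cutF_re_nonneg (v : ℝ) : 0 ≤ (cutF v).re := by
  rw [cutF_re]
  exact Real.smoothTransition.nonneg _

theorem cutF_re_le_one (v : ℝ) : (cutF v).re ≤ 1 := by
  rw [cutF_re]
  exact Real.smoothTransition.le_one _

theorem norm_cutF_le_one (v : ℝ) : ‖cutF v‖ ≤ 1 := by
  unfold cutF
  rw [Complex.norm_real, Real.norm_eq_abs, abs_of_nonneg (Real.smoothTransition.nonneg _)]
  exact Real.smoothTransition.le_one _

theorem smooth_cut_mul {f : ℝ → ℝ} (hf : ∀ v, 1 / 8 < v → ContDiffAt ℝ ∞ f v) :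
    ContDiff ℝ ∞ fun v => Real.smoothTransition (4 * v - 1) * f v := by
  rw [contDiff_iff_contDiffAt]
  intro v
  rcases lt_or_ge (1 / 8) v with h | h
  · refine ContDiffAt.mul ?_ (hf v h)
    exact (Real.smoothTransition.contDiff.comp
      ((contDiff_const.mul contDiff_id).sub contDiff_const)).contDiffAt
  · have he : (fun v => Real.smoothTransition (4 * v - 1) * f v) =ᶠ[nhds v] fun _ => 0 := by
      filter_upwards [Iio_mem_nhds (show v < 1 / 4 by linarith)] with x hx
      have hx' : x < 1 / 4 := hx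
      rw [Real.smoothTransition.zero_of_nonpos (by linarith), zero_mul]
    exact contDiffAt_const.congr_of_eventuallyEq he

/-- smooth, equal to `1 / v` for `v ≥ 1/2` -/
def invF (v : ℝ) : ℂ := ((Real.smoothTransition (4 * v - 1) * v⁻¹ : ℝ) : ℂ)

theorem contDiff_invF : ContDiff ℝ ∞ invF := by
  refine Complex.ofRealCLM.contDiff.comp (smooth_cut_mul fun v hv => ?_)
  exact contDiffAt_inv ℝ (ne_of_gt (by linarith))

theorem invF_im (v : ℝ) : (invF v).im = 0 := Complex.ofReal_im _

theorem invF_eq {v : ℝ} (hv : 1 / 2 ≤ v) : invF v = 1 / (v : ℂ) := by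
  unfold invF
  rw [Real.smoothTransition.one_of_one_le (by linarith), one_mul]
  push_cast
  rw [one_div]

theorem invF_mul {v : ℝ} (hv : 1 / 2 ≤ v) : invF v * (v : ℂ) = 1 := by
  have h : (v : ℂ) ≠ 0 := by
    rw [Ne, Complex.ofReal_eq_zero]
    linarith
  rw [invF_eq hv, one_div, inv_mul_cancel₀ h]

/-- smooth, `rsF v ^ 2 * v = 1` for `v ≥ 1/2` -/
def rsF (v : ℝ) : ℂ := ((Real.smoothTransition (4 * v - 1) * (√v)⁻¹ : ℝ) : ℂ)

theorem contDiff_rsF : ContDiff ℝ ∞ rsF := by
  refine Complex.ofRealCLM.contDiff.comp (smooth_cut_mul fun v hv => ?_)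
  have hv0 : 0 < v := by linarith
  exact (contDiffAt_id.sqrt hv0.ne').inv (Real.sqrt_pos.2 hv0).ne'

theorem rsF_im (v : ℝ) : (rsF v).im = 0 := Complex.ofReal_im _

theorem rsF_re {v : ℝ} (hv : 1 / 2 ≤ v) : (rsF v).re = (√v)⁻¹ := by
  unfold rsF
  rw [Complex.ofReal_re, Real.smoothTransition.one_of_one_le (by linarith), one_mul]

theorem rsF_re_pos {v : ℝ} (hv : 1 / 2 ≤ v) : 0 < (rsF v).re := by
  rw [rsF_re hv]
  have hv0 : 0 < v := by linarith
  exact inv_pos.2 (Real.sqrt_pos.2 hv0)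

theorem rsF_sq {v : ℝ} (hv : 1 / 2 ≤ v) : rsF v ^ 2 * (v : ℂ) = 1 := by
  have hv0 : 0 < v := by linarith
  unfold rsF
  rw [Real.smoothTransition.one_of_one_le (by linarith), one_mul]
  rw [← Complex.ofReal_pow, ← Complex.ofReal_mul, inv_pow, Real.sq_sqrt hv0.le,
    inv_mul_cancel₀ hv0.ne', Complex.ofReal_one]

end Vale.Agent.P205.F
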