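import Vale.Agent.P205.PC.Ray

/-!
Second derivatives in a coordinate box and the good triple (P205, full question, block PC).
-/

noncomputable section

namespace Vale.Agent.P205.F

open scoped ContDiff
open Vale.Agent.P205.PC

universe u

variable {P : Type u} {κ : Type} [Fintype κ] {S : DAlg P κ}

section

variable {C : Type} [Fintype C] {G : κ → κ → P → ℂ} {κ0 : ℝ} (B : Boxes S C G κ0)

theorem Boxes.D_eq (c : C) {u : P → ℂ} (hu : S.Sm u) (j : κ) {p : P} (hp : p ∈ B.K c) :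
    S.D j u p = S.D j (B.x c 0) p * S.dir (B.Y c 0) u p
      + S.D j (B.x c 1) p * S.dir (B.Y c 1) u p := by
  rw [B.dec c u hu j p hp, Fin.sum_univ_two]

theorem Boxes.DD_eq (c : C) {u : P → ℂ} (hu : S.Sm u) (j k : κ) {p : P} (hp : p ∈ B.K c) :
    S.D j (S.D k u) p =
      (S.D j (B.x c 0) p * (S.D k (B.x c 0) p * S.dir (B.Y c 0) (S.dir (B.Y c 0) u) p)
      + S.D j (B.x c 0) p * (S.D k (B.x c 1) p * S.dir (B.Y c 0) (S.dir (B.Y c 1) u) p)
      + (S.D j (B.x c 1) p * (S.D k (B.x c 0) p * S.dir (B.Y c 1) (S.dir (B.Y c 0) u) p)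
      + S.D j (B.x c 1) p * (S.D k (B.x c 1) p * S.dir (B.Y c 1) (S.dir (B.Y c 1) u) p)))
      + (S.D j (S.D k (B.x c 0)) p * S.dir (B.Y c 0) u p
      + S.D j (S.D k (B.x c 1)) p * S.dir (B.Y c 1) u p) := by
  have s0 : S.Sm (S.dir (B.Y c 0) u) := S.sm_dir (B.smY c 0) hu
  have s1 : S.Sm (S.dir (B.Y c 1) u) := S.sm_dir (B.smY c 1) hu
  have x0 : S.Sm (S.D k (B.x c 0)) := S.sm_D k (B.smx c 0)
  have x1 : S.Sm (S.D k (B.x c 1)) := S.sm_D k (B.smx c 1)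
  have sA := S.sm_mul x0 s0
  have sB := S.sm_mul x1 s1
  have h1 := B.loc c (S.D k u - (S.D k (B.x c 0) * S.dir (B.Y c 0) u
    + S.D k (B.x c 1) * S.dir (B.Y c 1) u)) (S.sm_sub (S.sm_D k hu) (S.sm_add sA sB))
    (fun q hq => by
      rw [Pi.sub_apply, B.D_eq c hu k hq]
      exact sub_self _) j p hp
  rw [S.D_sub_apply j (S.sm_D k hu) (S.sm_add sA sB), S.D_add_apply j sA sB,
    S.D_mul_apply j x0 s0, S.D_mul_apply j x1 s1, B.D_eq c s0 j hp, B.D_eq c s1 j hp] at h1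
  linear_combination h1

theorem Boxes.ddv_comm (c : C) {f : Fin 4 → P → ℂ} (hf : ∀ a, S.Sm (f a)) {p : P}
    (hp : p ∈ B.K c) : ddv S (B.Y c) f p 1 0 = ddv S (B.Y c) f p 0 1 := by
  funext a
  simp only [ddv, rev, DAlg.dirv]
  rw [B.comm c (f a) (hf a) p hp]

/-- one bad direction in each triple: all Gram determinants are small -/
theorem Boxes.gram_le (c : C) {f : Fin 4 → P → ℂ} (hf : ∀ a, S.Sm (f a)) (hr : ∀ a, Rl (f a))
    {b : ℝ} (hb : ∀ i j p, ‖S.D j (B.x c i) p‖ ≤ b) {σ : ℝ} (hσ : 0 ≤ σ) {p : P}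
    (hp : p ∈ B.K c) (r : Fin 3 → Fin 3)
    (h : ∀ τ, gR (rev (S.dirv (B.Y c 0) f) p) (rev (S.dirv (B.Y c 1) f) p)
      (vv (ddv S (B.Y c) f p) (dl τ (r τ))) ≤ σ ^ 2) (j1 j2 j k : κ) :
    (gram3 (S.Dv j1 f) (S.Dv j2 f) (S.Dv j (S.Dv k f)) p).re ≤ 30976 * b ^ 8 * σ ^ 2 := by
  have rD : ∀ l a, Rl (S.Dv l f a) := fun l a => S.rl_D l (hf a) (hr a)
  have sD : ∀ l a, S.Sm (S.Dv l f a) := fun l a => S.sm_D l (hf a)
  have rDD : ∀ a, Rl (S.Dv j (S.Dv k f) a) := fun a => S.rl_D j (sD k a) (rD k a)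
  rw [gram3_rev (rD j1) (rD j2) rDD]
  set x := rev (S.dirv (B.Y c 0) f) p with hx
  set y := rev (S.dirv (B.Y c 1) f) p with hy
  have rx : ∀ l i, (S.D l (B.x c i) p).im = 0 := fun l i => S.rl_D l (B.smx c i) (B.rx c i) p
  have rxx : ∀ i, (S.D j (S.D k (B.x c i)) p).im = 0 := fun i =>
    S.rl_D j (S.sm_D k (B.smx c i)) (S.rl_D k (B.smx c i) (B.rx c i)) p
  have e1 : ∀ l, rev (S.Dv l f) p = (S.D l (B.x c 0) p).re • x + (S.D l (B.x c 1) p).re • y :=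
    fun l => by
    funext a
    simp only [rev, DAlg.Dv, DAlg.dirv, Pi.add_apply, Pi.smul_apply, smul_eq_mul, hx, hy]
    rw [B.D_eq c (hf a) l hp, Complex.add_re, re_mul_im (rx l 0), re_mul_im (rx l 1)]
  have e2 : rev (S.Dv j (S.Dv k f)) p =
      (∑ i, ∑ i', ((S.D j (B.x c i) p).re * (S.D k (B.x c i') p).re) • ddv S (B.Y c) f p i i')
      + ((S.D j (S.D k (B.x c 0)) p).re • x + (S.D j (S.D k (B.x c 1)) p).re • y) := by
    funext a
    simp only [rev, DAlg.Dv, DAlg.dirv, Pi.add_apply, Pi.smul_apply, smul_eq_mul, hx, hy,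
      Fin.sum_univ_two, ddv]
    rw [B.DD_eq c (hf a) j k hp, Complex.add_re, Complex.add_re, Complex.add_re, Complex.add_re,
      Complex.add_re, re_mul_im (rx j 0), re_mul_im (rx j 0), re_mul_im (rx j 1),
      re_mul_im (rx j 1), re_mul_im (rxx 0), re_mul_im (rxx 1), re_mul_im (rx k 0),
      re_mul_im (rx k 1), re_mul_im (rx k 0), re_mul_im (rx k 1)]
    ring
  have hre : ∀ l i, |(S.D l (B.x c i) p).re| ≤ b := fun l i =>
    (Complex.abs_re_le_norm _).trans (hb i l p)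
  rw [e1, e1, e2]
  refine key_gR (B.ddv_comm c hf hp) hσ r h (fun i i' => ?_) (hre _ _) (hre _ _) (hre _ _)
    (hre _ _)
  rw [abs_mul, sq]
  exact mul_le_mul (hre _ _) (hre _ _) (abs_nonneg _) ((abs_nonneg _).trans (hre j 0))

end

end Vale.Agent.P205.F
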