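import Vale.Agent.P205.PC.Good

/-!
Decomposition of tensors into the pieces (P205, full question, block PC).
-/

noncomputable section

open scoped ContDiff
open Set Filter

namespace Vale.Agent.P205.F

open Vale.Agent.P205.PC (dR gR vv dl lc lam lam_dec lam_ge dl_sq dl_abs)

universe u

variable {P : Type u} {κ : Type} [Fintype κ] {S : DAlg P κ}

namespace Boxes

variable {C : Type} [Fintype C] {G : κ → κ → P → ℂ} {κ0 : ℝ} (B : Boxes S C G κ0)

/-- phase of a piece: `Λ (l₀ x₀ + l₁ x₁)` -/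
def ph (c : C) (l : Fin 2 → ℝ) (Λ : ℝ) : P → ℂ :=
  fun p => (Λ : ℂ) * ∑ i, (l i : ℂ) * B.x c i p

theorem sm_ph (c : C) (l : Fin 2 → ℝ) (Λ : ℝ) : S.Sm (B.ph c l Λ) :=
  S.sm_smul _ (S.sm_sum' (A := Finset.univ) (u := fun i p => (l i : ℂ) * B.x c i p)
    fun i _ => S.sm_smul _ (B.smx c i))

theorem rl_ph (c : C) (l : Fin 2 → ℝ) (Λ : ℝ) : Rl (B.ph c l Λ) :=
  Rl.smul (Complex.ofReal_im _) (Rl.sum (A := Finset.univ)
    (u := fun i p => (l i : ℂ) * B.x c i p) fun i _ => (B.rx c i).smul (Complex.ofReal_im _))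

theorem D_ph (c : C) (l : Fin 2 → ℝ) (Λ : ℝ) (j : κ) (p : P) :
    S.D j (B.ph c l Λ) p = (Λ : ℂ) * ∑ i, (l i : ℂ) * S.D j (B.x c i) p := by
  have h1 : ∀ i ∈ (Finset.univ : Finset (Fin 2)), S.Sm (fun p => (l i : ℂ) * B.x c i p) :=
    fun i _ => S.sm_smul _ (B.smx c i)
  unfold ph
  rw [S.D_smul_apply j _ (S.sm_sum' (A := Finset.univ)
    (u := fun i p => (l i : ℂ) * B.x c i p) h1), S.D_sum_apply j h1]
  congr 1
  exact Finset.sum_congr rfl fun i _ => S.D_smul_apply j _ (B.smx c i) p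

/-- coefficient functional of a piece -/
def el (c : C) (τ r : Fin 3) (Λ : ℝ) (j k : κ) : P → ℂ :=
  fun p => ((1 / Λ ^ 2 : ℝ) : ℂ) * ∑ i, ∑ m, (lc τ r i m : ℂ) * (B.Y c i j p * B.Y c m k p)

theorem sm_el (c : C) (τ r : Fin 3) (Λ : ℝ) (j k : κ) : S.Sm (B.el c τ r Λ j k) := by
  have h1 : ∀ i m, S.Sm (fun p => (lc τ r i m : ℂ) * (B.Y c i j * B.Y c m k) p) := fun i m =>
    S.sm_smul _ (S.sm_mul (B.smY c i j) (B.smY c m k))
  have h2 : ∀ i, S.Sm (fun p => ∑ m, (lc τ r i m : ℂ) * (B.Y c i j * B.Y c m k) p) := fun i =>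
    S.sm_sum' (A := Finset.univ)
      (u := fun m p => (lc τ r i m : ℂ) * (B.Y c i j * B.Y c m k) p) fun m _ => h1 i m
  exact S.sm_smul _ (S.sm_sum' (A := Finset.univ)
    (u := fun i p => ∑ m, (lc τ r i m : ℂ) * (B.Y c i j * B.Y c m k) p) fun i _ => h2 i)

theorem rl_el (c : C) (τ r : Fin 3) (Λ : ℝ) (j k : κ) : Rl (B.el c τ r Λ j k) :=
  Rl.smul (Complex.ofReal_im _) (Rl.sum (A := Finset.univ)
    (u := fun i p => ∑ m, (lc τ r i m : ℂ) * (B.Y c i j * B.Y c m k) p) fun i _ =>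
      Rl.sum (A := Finset.univ) (u := fun m p => (lc τ r i m : ℂ) * (B.Y c i j * B.Y c m k) p)
        fun m _ => ((B.rY c i j).mul (B.rY c m k)).smul (Complex.ofReal_im _))

/-- the components of a tensor in a box -/
def tc (c : C) (T : κ → κ → P → ℂ) (i m : Fin 2) : P → ℂ :=
  fun p => ∑ j, ∑ k, B.Y c i j p * B.Y c m k p * T j k p

/-- contraction of the first index -/
theorem isT_fst {T : κ → κ → P → ℂ} (hT : S.IsT T) (c : C) {p : P} (hp : p ∈ B.K c) (j k : κ) :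
    T j k p = ∑ i, S.D j (B.x c i) p * ∑ j', B.Y c i j' p * T j' k p := by
  classical
  have h := hT.2 p (fun j' => (if j' = j then 1 else 0)
    - ∑ i, S.D j (B.x c i) p * B.Y c i j' p) (fun u hu => ?_) k
  · simp only [sub_mul, Finset.sum_sub_distrib, ite_mul, one_mul, zero_mul,
      Finset.sum_ite_eq', Finset.mem_univ, if_true] at h
    rw [sub_eq_zero] at h
    rw [h]
    simp only [Finset.sum_mul, Finset.mul_sum]
    rw [Finset.sum_comm]
    refine Finset.sum_congr rfl fun i _ => Finset.sum_congr rfl fun j' _ => ?_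
    ring
  · simp only [sub_mul, Finset.sum_sub_distrib, ite_mul, one_mul, zero_mul,
      Finset.sum_ite_eq', Finset.mem_univ, if_true]
    rw [B.dec c u hu j p hp, sub_eq_zero]
    simp only [Finset.sum_mul, DAlg.dir, Finset.mul_sum]
    rw [Finset.sum_comm]
    refine Finset.sum_congr rfl fun i _ => Finset.sum_congr rfl fun j' _ => ?_
    ring

/-- a tensor in a box -/
theorem isT_box {T : κ → κ → P → ℂ} (hT : S.IsT T) (c : C) {p : P} (hp : p ∈ B.K c) (j k : κ) :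
    T j k p = ∑ i, ∑ m, S.D j (B.x c i) p * S.D k (B.x c m) p * B.tc c T i m p := by
  rw [B.isT_fst hT c hp j k]
  have h2 : ∀ j', T j' k p = ∑ m, S.D k (B.x c m) p * ∑ k', B.Y c m k' p * T j' k' p := by
    intro j'
    rw [hT.1 j' k, B.isT_fst hT c hp k j']
    refine Finset.sum_congr rfl fun m _ => ?_
    congr 1
    exact Finset.sum_congr rfl fun k' _ => by rw [hT.1 k' j']
  refine Finset.sum_congr rfl fun i _ => ?_
  unfold tc
  rw [Finset.mul_sum]
  simp only [h2, Finset.mul_sum]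
  rw [Finset.sum_comm]
  refine Finset.sum_congr rfl fun m _ => Finset.sum_congr rfl fun j' _ =>
    Finset.sum_congr rfl fun k' _ => ?_
  ring

/-- complex version of `lam_dec` -/
theorem lam_dec_complex (τ : Fin 3) (T : Fin 2 → Fin 2 → ℂ) (hT : T 1 0 = T 0 1) (i j : Fin 2) :
    T i j = ∑ r, (∑ a, ∑ b, (lc τ r a b : ℂ) * T a b) * ((dl τ r i : ℂ) * (dl τ r j : ℂ)) := by
  fin_cases τ <;> fin_cases i <;> fin_cases j <;>
    simp [lc, dl, Vale.Agent.P205.PC.dz, Fin.sum_univ_three, Fin.sum_univ_two, hT] <;> ring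

theorem tc_symm {T : κ → κ → P → ℂ} (hT : S.IsT T) (c : C) (p : P) :
    B.tc c T 1 0 p = B.tc c T 0 1 p := by
  unfold tc
  rw [Finset.sum_comm]
  refine Finset.sum_congr rfl fun k _ => Finset.sum_congr rfl fun j _ => ?_
  rw [hT.1 j k]
  ring

/-- the value of the functional in terms of the components -/
theorem ell_eq (c : C) (τ r : Fin 3) (Λ : ℝ) (T : κ → κ → P → ℂ) (p : P) :
    ∑ j, ∑ k, B.el c τ r Λ j k p * T j k p
      = ((1 / Λ ^ 2 : ℝ) : ℂ) * ∑ i, ∑ m, (lc τ r i m : ℂ) * B.tc c T i m p := by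
  unfold el tc
  simp only [Fin.sum_univ_two, Finset.mul_sum]
  simp only [← Finset.sum_add_distrib, Finset.mul_sum]
  refine Finset.sum_congr rfl fun j _ => Finset.sum_congr rfl fun k _ => ?_
  ring

/-- **decomposition by one triple** -/
theorem dec_triple {T : κ → κ → P → ℂ} (hT : S.IsT T) (c : C) {p : P} (hp : p ∈ B.K c)
    (τ : Fin 3) {Λ : Fin 3 → ℝ} (hΛ : ∀ r, Λ r ≠ 0) (j k : κ) :
    T j k p = ∑ r, (∑ j', ∑ k', B.el c τ r (Λ r) j' k' p * T j' k' p)
      * (S.D j (B.ph c (dl τ r) (Λ r)) p * S.D k (B.ph c (dl τ r) (Λ r)) p) := by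
  have h1 : ∀ r, (∑ j', ∑ k', B.el c τ r (Λ r) j' k' p * T j' k' p)
      * (S.D j (B.ph c (dl τ r) (Λ r)) p * S.D k (B.ph c (dl τ r) (Λ r)) p)
      = ∑ i, ∑ m, S.D j (B.x c i) p * S.D k (B.x c m) p *
        ((∑ a, ∑ b, (lc τ r a b : ℂ) * B.tc c T a b p)
          * ((dl τ r i : ℂ) * (dl τ r m : ℂ))) := by
    intro r
    rw [B.ell_eq, B.D_ph, B.D_ph]
    have hr : (Λ r : ℂ) ≠ 0 := by exact_mod_cast hΛ r
    simp only [Fin.sum_univ_two]
    push_cast
    field_simp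
  rw [B.isT_box hT c hp j k, Finset.sum_congr rfl fun r _ => h1 r]
  have h2 := lam_dec_complex τ (fun i m => B.tc c T i m p) (B.tc_symm hT c p)
  conv_rhs => rw [Finset.sum_comm]
  refine Finset.sum_congr rfl fun i _ => ?_
  conv_rhs => rw [Finset.sum_comm]
  refine Finset.sum_congr rfl fun m _ => ?_
  rw [← Finset.mul_sum, ← h2 i m]

/-- **decomposition by all pieces** -/
theorem dec_all {T : κ → κ → P → ℂ} (hT : S.IsT T) {Λ : C → Fin 3 → Fin 3 → ℝ}
    (hΛ : ∀ c τ r, Λ c τ r ≠ 0) {χ : C → Fin 3 → P → ℂ}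
    (hχ : ∀ c p, ∑ τ, χ c τ p ^ 2 = B.ρ c p ^ 2) (hχK : ∀ c τ p, p ∉ B.K c → χ c τ p = 0)
    (j k : κ) (p : P) :
    T j k p = ∑ c, ∑ τ, ∑ r, χ c τ p ^ 2 *
      (∑ j', ∑ k', B.el c τ r (Λ c τ r) j' k' p * T j' k' p)
      * (S.D j (B.ph c (dl τ r) (Λ c τ r)) p * S.D k (B.ph c (dl τ r) (Λ c τ r)) p) := by
  have h1 : ∀ c, (∑ τ, ∑ r, χ c τ p ^ 2 *
      (∑ j', ∑ k', B.el c τ r (Λ c τ r) j' k' p * T j' k' p)
      * (S.D j (B.ph c (dl τ r) (Λ c τ r)) p * S.D k (B.ph c (dl τ r) (Λ c τ r)) p))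
      = B.ρ c p ^ 2 * T j k p := by
    intro c
    by_cases hp : p ∈ B.K c
    · rw [← hχ c p, Finset.sum_mul]
      refine Finset.sum_congr rfl fun τ _ => ?_
      conv_rhs => rw [B.dec_triple hT c hp τ (hΛ c τ) j k, Finset.mul_sum]
      exact Finset.sum_congr rfl fun r _ => by ring
    · have h0 : B.ρ c p = 0 := (B.zρ c).apply hp
      rw [h0]
      simp only [hχK c _ p hp]
      simp
  rw [Finset.sum_congr rfl fun c _ => h1 c, ← Finset.sum_mul, B.sum p, one_mul]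

/-- **lower bound of the coefficients** -/
theorem el_ge {T : κ → κ → P → ℂ} (c : C) {p : P} {BY κ1 : ℝ} (hBY : ∀ i j, ‖B.Y c i j p‖ ≤ BY)
    (hp : p ∈ B.K c) (hT : ∀ j k, ‖T j k p - G j k p‖ ≤ κ1) (hκ0 : κ0 ≤ 1 / 200)
    (hκ1 : (Fintype.card κ : ℝ) ^ 2 * BY ^ 2 * κ1 ≤ 1 / 200) (τ r : Fin 3) {Λ : ℝ}
    (hΛ : Λ ≠ 0) :
    1 / (20 * Λ ^ 2) ≤ (∑ j, ∑ k, B.el c τ r Λ j k p * T j k p).re := by
  have hBY0 : 0 ≤ BY ∨ IsEmpty κ := by
    by_cases h : IsEmpty κ
    · exact Or.inr h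
    · rw [not_isEmpty_iff] at h
      exact Or.inl ((norm_nonneg _).trans (hBY 0 (Classical.arbitrary κ)))
  have hclose : ∀ i m, ‖B.tc c T i m p - (if i = m then 1 else 0)‖ ≤ 1 / 100 := by
    intro i m
    have h1 : B.tc c T i m p - B.tc c G i m p
        = ∑ j, ∑ k, B.Y c i j p * B.Y c m k p * (T j k p - G j k p) := by
      unfold tc
      rw [← Finset.sum_sub_distrib]
      refine Finset.sum_congr rfl fun j _ => ?_
      rw [← Finset.sum_sub_distrib]
      exact Finset.sum_congr rfl fun k _ => by ring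
    have h2 : ‖B.tc c T i m p - B.tc c G i m p‖ ≤ 1 / 200 := by
      rw [h1]
      rcases hBY0 with hB0 | hem
      · have h3 : ∀ j k, ‖B.Y c i j p * B.Y c m k p * (T j k p - G j k p)‖ ≤ BY ^ 2 * κ1 := by
          intro j k
          rw [norm_mul, norm_mul, pow_two]
          exact mul_le_mul (mul_le_mul (hBY i j) (hBY m k) (norm_nonneg _) hB0) (hT j k)
            (norm_nonneg _) (mul_nonneg hB0 hB0)
        have h4 : ‖∑ j, ∑ k, B.Y c i j p * B.Y c m k p * (T j k p - G j k p)‖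
            ≤ ∑ _j : κ, ∑ _k : κ, BY ^ 2 * κ1 :=
          (norm_sum_le _ _).trans (Finset.sum_le_sum fun j _ =>
            (norm_sum_le _ _).trans (Finset.sum_le_sum fun k _ => h3 j k))
        refine h4.trans (le_trans (le_of_eq ?_) hκ1)
        simp only [Finset.sum_const, Finset.card_univ, nsmul_eq_mul]
        ring
      · simp
    have h5 := B.near c p hp i m
    have h6 : B.tc c T i m p - (if i = m then 1 else 0)
        = (B.tc c T i m p - B.tc c G i m p) + (B.tc c G i m p - (if i = m then 1 else 0)) := by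
      ring
    rw [h6]
    refine (norm_add_le _ _).trans ?_
    have h7 : ‖B.tc c G i m p - (if i = m then 1 else 0)‖ ≤ 1 / 200 := h5.trans hκ0
    linarith
  rw [B.ell_eq, Complex.re_ofReal_mul]
  have hlam := lam_ge τ r (fun i m => (B.tc c T i m p).re) fun i m => by
    have h1 := (Complex.abs_re_le_norm _).trans (hclose i m)
    rw [Complex.sub_re] at h1
    split_ifs at h1 ⊢ with h
    · simpa using h1
    · simpa using h1
  have hre : (∑ i, ∑ m, (lc τ r i m : ℂ) * B.tc c T i m p).re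
      = lam τ r (fun i m => (B.tc c T i m p).re) := by
    unfold lam
    rw [Complex.re_sum]
    refine Finset.sum_congr rfl fun i _ => ?_
    rw [Complex.re_sum]
    exact Finset.sum_congr rfl fun m _ => Complex.re_ofReal_mul _ _
  rw [hre]
  have hΛ2 : 0 < Λ ^ 2 := by positivity
  calc 1 / (20 * Λ ^ 2) = 1 / Λ ^ 2 * (1 / 20) := by
        field_simp
    _ ≤ 1 / Λ ^ 2 * lam τ r (fun i m => (B.tc c T i m p).re) :=
        mul_le_mul_of_nonneg_left hlam (by positivity)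

end Boxes

end Vale.Agent.P205.F
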