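import Vale.Agent.P205.PC.Wt

/-!
The rays of the pieces in all boxes: single rays and pair rays with lacunary phases
(P205, full question, block PC).
-/

noncomputable section

namespace Vale.Agent.P205.F

open scoped ContDiff
open Vale.Agent.P205.PC

universe u

variable {P : Type u} {κ : Type} [Fintype κ] {S : DAlg P κ}

/-- index set of the pieces: box, triple, member -/
abbrev PQ (C : Type) : Type := C × Fin 3 × Fin 3

section

variable {C : Type} [Fintype C] {G : κ → κ → P → ℂ} {κ0 : ℝ}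

/-- position of an index -/
def pidx (a : PQ C) : ℕ := (Fintype.equivFin (PQ C) a).val + 1

theorem pidx_inj {a b : PQ C} (h : pidx a = pidx b) : a = b := by
  have h1 : (Fintype.equivFin (PQ C) a).val = (Fintype.equivFin (PQ C) b).val :=
    Nat.succ_injective h
  exact (Fintype.equivFin (PQ C)).injective (Fin.ext h1)

theorem pidx_le (a : PQ C) : pidx a ≤ Fintype.card (PQ C) :=
  (Fintype.equivFin (PQ C) a).isLt

/-- sign -/
def sg : Bool → ℝ
  | true => 1
  | false => -1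

variable (B : Boxes S C G κ0)

/-- phase of an index without the large factor -/
def phi (a : PQ C) : P → ℂ :=
  fun p => (dl a.2.1 a.2.2 0 : ℂ) * B.x a.1 0 p + (dl a.2.1 a.2.2 1 : ℂ) * B.x a.1 1 p

/-- data of a ray with leading index `a` -/
def rmk (a : PQ C) (s M om : ℝ) (ψ : P → ℂ) (K : Set P) : RIn P κ where
  x := B.x a.1
  Y := B.Y a.1
  l := fun i => s * dl a.2.1 a.2.2 i
  M := M
  om := om
  ψ := ψ
  K := K

open Classical in
/-- data of all rays -/
def prm (H : ℝ) (K : Set P) : PQ C ⊕ (PQ C × PQ C × Bool) → RIn P κ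
  | Sum.inl a => rmk B a 1 (H ^ pidx a) 0 (fun _ => 0) K
  | Sum.inr (a, b, σ) =>
    if a = b then rmk B a 1 (2 * H ^ pidx a) 0 (fun _ => 0) K
    else if pidx a < pidx b then rmk B b (sg σ) (H ^ pidx b) (H ^ pidx a) (phi B a) K
    else rmk B a 1 (H ^ pidx a) (sg σ * H ^ pidx b) (phi B b) K

theorem prm_K (H : ℝ) (K : Set P) (x) : (prm B H K x).K = K := by
  rcases x with a | ⟨a, b, σ⟩
  · rfl
  · simp only [prm]
    split_ifs <;> rfl

theorem prm_Ψ (H : ℝ) (K : Set P) (x) :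
    ((prm B H K x).ray S).Ψ = ((prm B H ∅ x).ray S).Ψ := by
  rcases x with a | ⟨a, b, σ⟩
  · rfl
  · simp only [prm]
    split_ifs <;> rfl

theorem prm_t (H : ℝ) (K : Set P) (x) :
    ((prm B H K x).ray S).t = ((prm B H ∅ x).ray S).t := by
  rcases x with a | ⟨a, b, σ⟩
  · rfl
  · simp only [prm]
    split_ifs <;> rfl

theorem prm_w (H : ℝ) (K : Set P) (x) :
    ((prm B H K x).ray S).w = ((prm B H ∅ x).ray S).w := by
  rcases x with a | ⟨a, b, σ⟩
  · rfl
  · simp only [prm]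
    split_ifs <;> rfl

theorem prm_β (H : ℝ) (K : Set P) (x) :
    ((prm B H K x).ray S).β = ((prm B H ∅ x).ray S).β := by
  rcases x with a | ⟨a, b, σ⟩
  · rfl
  · simp only [prm]
    split_ifs <;> rfl

theorem phase_inl (H : ℝ) (K : Set P) (a : PQ C) :
    ((prm B H K (Sum.inl a)).ray S).Ψ = fun p => ((H ^ pidx a : ℝ) : ℂ) * phi B a p := by
  funext p
  simp only [prm, rmk, RIn.ray, phi]
  push_cast
  ring

theorem phase_true (H : ℝ) (K : Set P) (a b : PQ C) :
    ((prm B H K (Sum.inr (a, b, true))).ray S).Ψ =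
      ((prm B H K (Sum.inl a)).ray S).Ψ + ((prm B H K (Sum.inl b)).ray S).Ψ := by
  rw [phase_inl, phase_inl]
  funext p
  simp only [prm, Pi.add_apply]
  split_ifs with h h'
  · subst h
    simp only [rmk, RIn.ray, phi]
    push_cast
    ring
  · simp only [rmk, RIn.ray, phi, sg]
    push_cast
    ring
  · simp only [rmk, RIn.ray, phi, sg]
    push_cast
    ring

theorem phase_false (H : ℝ) (K : Set P) {a b : PQ C} (hab : a ≠ b) :
    ((prm B H K (Sum.inr (a, b, false))).ray S).Ψ =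
      ((prm B H K (Sum.inl a)).ray S).Ψ - ((prm B H K (Sum.inl b)).ray S).Ψ := by
  rw [phase_inl, phase_inl]
  funext p
  simp only [prm, Pi.sub_apply, if_neg hab]
  split_ifs with h'
  · simp only [rmk, RIn.ray, phi, sg]
    push_cast
    ring
  · simp only [rmk, RIn.ray, phi, sg]
    push_cast
    ring

/-- region of a piece -/
def KK (f : Fin 4 → P → ℂ) (A : ℝ) (a : PQ C) : Set P :=
  B.K a.1 ∩ {p | ∀ r, 1 ≤ A * (qg S (B.Y a.1) f (dl a.2.1 r) p).re}

/-- region of a ray -/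
def KS (f : Fin 4 → P → ℂ) (A : ℝ) : PQ C ⊕ (PQ C × PQ C × Bool) → Set P
  | Sum.inl a => KK B f A a
  | Sum.inr (a, b, _) => KK B f A a ∩ KK B f A b

/-- a good ray -/
structure GoodR (f : Fin 4 → P → ℂ) (A e Mx : ℝ) (R : RIn P κ) (a : PQ C) (s : ℝ) : Prop where
  x : R.x = B.x a.1
  Y : R.Y = B.Y a.1
  l : R.l = fun i => s * dl a.2.1 a.2.2 i
  s : s = 1 ∨ s = -1
  M : 1 ≤ R.M
  Mx : R.M ≤ Mx
  smψ : S.Sm R.ψ
  rψ : Rl R.ψ
  small : ∀ i p, ‖((R.om / R.M : ℝ) : ℂ) * S.dir (R.Y i) R.ψ p‖ ≤ e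
  K : ∀ p ∈ R.K, p ∈ B.K a.1
  K' : ∀ p ∈ R.K, 1 ≤ A * (qg S (B.Y a.1) f (dl a.2.1 a.2.2) p).re

variable {B}

theorem sg_abs (σ : Bool) : |sg σ| = 1 := by cases σ <;> simp [sg]

theorem sg_or (σ : Bool) : sg σ = 1 ∨ sg σ = -1 := by cases σ <;> simp [sg]

theorem sm_phi (a : PQ C) : S.Sm (phi B a) :=
  S.sm_add (S.sm_smul _ (B.smx a.1 0)) (S.sm_smul _ (B.smx a.1 1))

theorem rl_phi (a : PQ C) : Rl (phi B a) :=
  (Rl.smul (Complex.ofReal_im _) (B.rx a.1 0)).add (Rl.smul (Complex.ofReal_im _) (B.rx a.1 1))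

/-- all rays are good -/
theorem prm_good {f : Fin 4 → P → ℂ} {A H Cψ : ℝ} (hH : 1 ≤ H) (hC : 0 ≤ Cψ)
    (hψ : ∀ (c : C) i (a : PQ C) p, ‖S.dir (B.Y c i) (phi B a) p‖ ≤ Cψ) {K : Set P}
    (x : PQ C ⊕ (PQ C × PQ C × Bool)) (hK : K ⊆ KS B f A x) :
    ∃ a s, GoodR B f A (Cψ / H) (2 * H ^ Fintype.card (PQ C)) (prm B H K x) a s := by
  classical
  have hH0 : 0 < H := zero_lt_one.trans_le hH
  have h1 : ∀ a : PQ C, 1 ≤ H ^ pidx a := fun a => one_le_pow₀ hH
  have h2 : ∀ a : PQ C, H ^ pidx a ≤ H ^ Fintype.card (PQ C) := fun a =>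
    pow_le_pow_right₀ hH (pidx_le a)
  have hN : (1 : ℝ) ≤ H ^ Fintype.card (PQ C) := one_le_pow₀ hH
  have hz : ∀ (M : ℝ) (Y : κ → P → ℂ) p,
      ‖((0 / M : ℝ) : ℂ) * S.dir Y (fun _ => 0) p‖ ≤ Cψ / H := fun M Y p => by
    rw [zero_div, Complex.ofReal_zero, zero_mul, norm_zero]
    positivity
  have hsm : ∀ (a b c : PQ C) (t : ℝ) i p, |t| = 1 → pidx a < pidx b →
      ‖((t * H ^ pidx a / H ^ pidx b : ℝ) : ℂ) * S.dir (B.Y c.1 i) (phi B a) p‖ ≤ Cψ / H :=
    fun a b c t i p ht hab => by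
      rw [norm_mul, Complex.norm_real, Real.norm_eq_abs, abs_div, abs_mul, ht, one_mul,
        abs_of_pos (pow_pos hH0 _), abs_of_pos (pow_pos hH0 _)]
      have e1 : H ^ pidx a / H ^ pidx b ≤ 1 / H := by
        rw [div_le_div_iff₀ (pow_pos hH0 _) hH0, one_mul, ← pow_succ]
        exact pow_le_pow_right₀ hH hab
      calc H ^ pidx a / H ^ pidx b * ‖S.dir (B.Y c.1 i) (phi B a) p‖ ≤ 1 / H * Cψ :=
            mul_le_mul e1 (hψ _ _ _ _) (norm_nonneg _) (by positivity)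
        _ = Cψ / H := by ring
  rcases x with a | ⟨a, b, σ⟩
  · refine ⟨a, 1, ⟨rfl, rfl, rfl, Or.inl rfl, h1 a, ?_, S.sm_const 0, Rl.const rfl,
      fun i p => hz _ _ p, fun p hp => (hK hp).1, fun p hp => (hK hp).2 _⟩⟩
    show H ^ pidx a ≤ _
    linarith [h2 a]
  · simp only [prm]
    split_ifs with h h'
    · refine ⟨a, 1, ⟨rfl, rfl, rfl, Or.inl rfl, ?_, ?_, S.sm_const 0, Rl.const rfl,
        fun i p => hz _ _ p, fun p hp => (hK hp).1.1, fun p hp => (hK hp).1.2 _⟩⟩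
      · show 1 ≤ 2 * H ^ pidx a
        linarith [h1 a]
      · show 2 * H ^ pidx a ≤ _
        linarith [h2 a]
    · refine ⟨b, sg σ, ⟨rfl, rfl, rfl, sg_or σ, h1 b, ?_, sm_phi a, rl_phi a,
        fun i p => ?_, fun p hp => (hK hp).2.1, fun p hp => (hK hp).2.2 _⟩⟩
      · show H ^ pidx b ≤ _
        linarith [h2 b]
      · have := hsm a b b 1 i p (by simp) h'
        rwa [one_mul] at this
    · have hlt : pidx b < pidx a := by
        rcases lt_trichotomy (pidx a) (pidx b) with h3 | h3 | h3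
        · exact absurd h3 h'
        · exact absurd (pidx_inj h3) h
        · exact h3
      refine ⟨a, 1, ⟨rfl, rfl, rfl, Or.inl rfl, h1 a, ?_, sm_phi b, rl_phi b,
        fun i p => ?_, fun p hp => (hK hp).1.1, fun p hp => (hK hp).1.2 _⟩⟩
      · show H ^ pidx a ≤ _
        linarith [h2 a]
      · exact hsm b a a (sg σ) i p (sg_abs σ) hlt

section good

variable {f : Fin 4 → P → ℂ} {A e Mx : ℝ} {R : RIn P κ} {a : PQ C} {s : ℝ}

theorem GoodR.nu_re (h : GoodR B f A e Mx R a s) (he : e ≤ 1 / 24) (i : Fin 2) (p : P) :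
    |(R.nu S i p).re - s * dl a.2.1 a.2.2 i| ≤ e := by
  have h1 : (R.nu S i p).re - s * dl a.2.1 a.2.2 i =
      (((R.om / R.M : ℝ) : ℂ) * S.dir (R.Y i) R.ψ p).re := by
    simp only [RIn.nu, h.l, Complex.add_re, Complex.ofReal_re]
    ring
  rw [h1]
  exact (Complex.abs_re_le_norm _).trans (h.small i p)

/-- a good ray is valid -/
theorem GoodR.ok (h : GoodR B f A e Mx R a s) (he : e ≤ 1 / 24) : R.Ok S where
  smx i := by rw [h.x]; exact B.smx _ i
  rx i := by rw [h.x]; exact B.rx _ i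
  smY i j := by rw [h.Y]; exact B.smY _ i j
  rY i j := by rw [h.Y]; exact B.rY _ i j
  smψ := h.smψ
  rψ := h.rψ
  M := zero_lt_one.trans_le h.M
  Yx p hp i j := by rw [h.Y, h.x]; exact B.Yx _ p (h.K p hp) i j
  dec u hu j p hp := by rw [h.Y, h.x]; exact B.dec _ u hu j p (h.K p hp)
  n2 p hp := by
    have hrl : ∀ i, (R.nu S i p).im = 0 := fun i => by
      have e1 : Rl (R.nu S i) := (Rl.const (Complex.ofReal_im _)).add
        (Rl.smul (Complex.ofReal_im _) (Rl.dir (by rw [h.Y]; exact B.rY _ i) h.smψ h.rψ))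
      exact e1 p
    have h0 := abs_le.mp ((h.nu_re he 0 p).trans he)
    have h1 := abs_le.mp ((h.nu_re he 1 p).trans he)
    have d0 := abs_le.mp (dl_abs a.2.1 a.2.2 0)
    have d1 := abs_le.mp (dl_abs a.2.1 a.2.2 1)
    have hd := dl_sq a.2.1 a.2.2
    have key : ∀ n l : ℝ, (-(1 / 24) ≤ n - s * l ∧ n - s * l ≤ 1 / 24) → (-3 ≤ l ∧ l ≤ 3) →
        l ^ 2 - 1 / 4 ≤ n * n := fun n l hn hl => by
      have hs := h.s
      have h5 : |s * l * (n - s * l)| ≤ 3 * (1 / 24) := by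
        rw [abs_mul]
        refine mul_le_mul ?_ (abs_le.mpr hn) (abs_nonneg _) (by norm_num)
        rw [abs_mul]
        have : |s| = 1 := by rcases hs with rfl | rfl <;> simp
        rw [this, one_mul]
        exact abs_le.mpr hl
      have h6 := (abs_le.mp h5).1
      have h7 : s * s = 1 := by rcases hs with rfl | rfl <;> norm_num
      have h8 : n * n = s * s * l ^ 2 + 2 * (s * l * (n - s * l)) + (n - s * l) ^ 2 := by ring
      rw [h8, h7]
      nlinarith [sq_nonneg (n - s * l)]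
    have k0 := key _ _ h0 d0
    have k1 := key _ _ h1 d1
    simp only [RIn.n2, Complex.add_re]
    rw [re_mul_im (hrl 0), re_mul_im (hrl 1)]
    linarith

theorem vv_smul_sign (Y : Fin 2 → Fin 2 → Fin 4 → ℝ) (l : Fin 2 → ℝ) {s : ℝ}
    (hs : s = 1 ∨ s = -1) : vv Y (fun i => s * l i) = vv Y l := by
  have h : s * s = 1 := by rcases hs with rfl | rfl <;> norm_num
  simp only [vv]
  congr 1
  · congr 1
    · congr 1
      linear_combination (l 1 ^ 2) * h
    · congr 1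
      linear_combination (l 0 * l 1) * h
  · congr 1
    linear_combination (l 0 ^ 2) * h

/-- nondegeneracy along a good ray -/
theorem GoodR.nondeg (h : GoodR B f A e Mx R a s) (hf : ∀ a, S.Sm (f a)) (hr : ∀ a, Rl (f a))
    (he0 : 0 ≤ e) (he : e ≤ 1 / 24) {A0 b CM : ℝ} (hA0 : 0 < A0) (hb : 0 < b)
    (hA : A = A0 / b ^ 2) {p : P} (hp : p ∈ R.K)
    (hCM : ∀ m i j, |PC.M m (rev (S.dirv (B.Y a.1 0) f) p) (rev (S.dirv (B.Y a.1 1) f) p)
      (ddv S (B.Y a.1) f p i j)| ≤ CM * b) (hsm : 112 * (e * CM) * √A0 ≤ 1) :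
    1 / (16 * A0 * Mx ^ 2) * b ^ 2 ≤
      (gram3 (S.dirv (R.ray S).t f) (S.dirv (R.ray S).w f)
        (S.dirv (R.ray S).w (S.dirv (R.ray S).w f)) p).re := by
  have hO := h.ok he
  have hM1 := h.M
  have hM0 : 0 < R.M := hO.M
  have hMx := h.Mx
  have hMx0 : 0 < Mx := hM0.trans_le hMx
  have hA1 : 0 < √A0 := Real.sqrt_pos.mpr hA0
  have hA2 : √A0 ^ 2 = A0 := Real.sq_sqrt hA0.le
  rw [hO.gram hf hr hp]
  rw [h.Y]
  have hq := h.K' p hp
  rw [qg_re (B.smY a.1) (B.rY a.1) hf hr, hA] at hq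
  set x := rev (S.dirv (B.Y a.1 0) f) p with hx
  set y := rev (S.dirv (B.Y a.1 1) f) p with hy
  set Y := ddv S (B.Y a.1) f p with hYdef
  have hq1 : (b / √A0) ^ 2 ≤ gR x y (vv Y (fun i => s * dl a.2.1 a.2.2 i)) := by
    rw [vv_smul_sign _ _ h.s, div_pow, hA2, div_le_iff₀ hA0]
    have hb2 : 0 < b ^ 2 := by positivity
    rw [div_mul_eq_mul_div, le_div_iff₀ hb2, one_mul] at hq
    rw [mul_comm]
    exact hq
  have hst := gR_vv_stable (x := x) (y := y) (Y := Y) (l := fun i => s * dl a.2.1 a.2.2 i)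
    (n := fun i => (R.nu S i p).re) (e := e) (C := CM * b) (s := b / √A0) he0
    (he.trans (by norm_num)) (fun i => by
      have : |s| = 1 := by rcases h.s with h1 | h1 <;> rw [h1] <;> simp
      rw [abs_mul, this, one_mul]
      exact dl_abs _ _ i) (fun i => h.nu_re he i p) hCM (by positivity) hq1 (by
      rw [le_div_iff₀ hA1]
      calc 112 * (e * (CM * b)) * √A0 = 112 * (e * CM) * √A0 * b := by ring
        _ ≤ 1 * b := mul_le_mul_of_nonneg_right hsm hb.le
        _ = b := one_mul b)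
  rw [div_pow, hA2] at hst
  calc 1 / (16 * A0 * Mx ^ 2) * b ^ 2 = Mx⁻¹ ^ 2 * (b ^ 2 / A0 / 16) := by
        field_simp
    _ ≤ R.M⁻¹ ^ 2 * gR x y (vv Y fun i => (R.nu S i p).re) := by
        refine mul_le_mul ?_ hst (by positivity) (by positivity)
        exact pow_le_pow_left₀ (by positivity) (inv_anti₀ hM0 hMx) 2

end good

end

end Vale.Agent.P205.F
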