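import Vale.Agent.P205.PC.Alg
import Vale.Agent.P205.PC.Comp
import Vale.Agent.P205.F.StageDef

/-!
Second derivatives in a box and the existence of a good triple (P205, full question, block PC).
-/

noncomputable section

open scoped ContDiff
open Set Filter

namespace Vale.Agent.P205.F

open Vale.Agent.P205.PC (dR gR vv dl key_gR dl_sq dl_abs)

universe u

variable {P : Type u} {κ : Type} [Fintype κ] {S : DAlg P κ}

/-! ### real parts of Gram determinants -/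

/-- real parts at a point -/
def rv (x : Fin 4 → P → ℂ) (p : P) : Fin 4 → ℝ := fun a => (x a p).re

theorem eq_rv {x : Fin 4 → P → ℂ} (hx : ∀ a, Rl (x a)) (a : Fin 4) (p : P) :
    x a p = (rv x p a : ℂ) := ((hx a).ofReal_re p).symm

theorem gram3_eq {x y z : Fin 4 → P → ℂ} (hx : ∀ a, Rl (x a)) (hy : ∀ a, Rl (y a))
    (hz : ∀ a, Rl (z a)) (p : P) :
    gram3 x y z p = ((gR (rv x p) (rv y p) (rv z p) : ℝ) : ℂ) := by
  have e1 : ∀ u v : Fin 4 → P → ℂ, (∀ a, Rl (u a)) → (∀ a, Rl (v a)) →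
      dot u v p = ((dR (rv u p) (rv v p) : ℝ) : ℂ) := by
    intro u v hu hv
    unfold dot dR
    push_cast
    exact Finset.sum_congr rfl fun a _ => by rw [eq_rv hu a p, eq_rv hv a p]
  unfold gram3 gR
  rw [e1 x x hx hx, e1 x y hx hy, e1 x z hx hz, e1 y y hy hy, e1 y z hy hz, e1 z z hz hz]
  push_cast
  ring

theorem gram3_re {x y z : Fin 4 → P → ℂ} (hx : ∀ a, Rl (x a)) (hy : ∀ a, Rl (y a))
    (hz : ∀ a, Rl (z a)) (p : P) :
    (gram3 x y z p).re = gR (rv x p) (rv y p) (rv z p) := by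
  rw [gram3_eq hx hy hz, Complex.ofReal_re]

theorem gram3_rl {x y z : Fin 4 → P → ℂ} (hx : ∀ a, Rl (x a)) (hy : ∀ a, Rl (y a))
    (hz : ∀ a, Rl (z a)) : Rl (gram3 x y z) := fun p => by
  rw [gram3_eq hx hy hz, Complex.ofReal_im]

omit [Fintype κ] in
theorem sm_gram3 {x y z : Fin 4 → P → ℂ} (hx : ∀ a, S.Sm (x a)) (hy : ∀ a, S.Sm (y a))
    (hz : ∀ a, S.Sm (z a)) : S.Sm (gram3 x y z) := by
  have xx := S.sm_dot hx hx
  have xy := S.sm_dot hx hy
  have xz := S.sm_dot hx hz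
  have yy := S.sm_dot hy hy
  have yz := S.sm_dot hy hz
  have zz := S.sm_dot hz hz
  exact S.sm_add (S.sm_sub (S.sm_mul xx (S.sm_sub (S.sm_mul yy zz) (S.sm_mul yz yz)))
    (S.sm_mul xy (S.sm_sub (S.sm_mul xy zz) (S.sm_mul yz xz))))
    (S.sm_mul xz (S.sm_sub (S.sm_mul xy yz) (S.sm_mul yy xz)))

omit [Fintype κ] in
/-- Gram determinants of families -/
theorem FO_gram3 {ι : Type*} {μ s1 s2 s3 : ι → ℝ} {x y z : ι → Fin 4 → P → ℂ}
    (hx : ∀ a, S.FO μ s1 (fun i => x i a)) (hy : ∀ a, S.FO μ s2 (fun i => y i a))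
    (hz : ∀ a, S.FO μ s3 (fun i => z i a)) :
    S.FO μ (fun i => s1 i ^ 2 * s2 i ^ 2 * s3 i ^ 2)
      (fun i => gram3 (x i) (y i) (z i)) := by
  have xx := DAlg.FO.dot hx hx
  have xy := DAlg.FO.dot hx hy
  have xz := DAlg.FO.dot hx hz
  have yy := DAlg.FO.dot hy hy
  have yz := DAlg.FO.dot hy hz
  have zz := DAlg.FO.dot hz hz
  have a1 : S.FO μ (fun i => s1 i ^ 2 * s2 i ^ 2 * s3 i ^ 2)
      (fun i => dot (x i) (x i) * (dot (y i) (y i) * dot (z i) (z i)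
        - dot (y i) (z i) * dot (y i) (z i))) := by
    refine (xx.mul (((yy.mul zz).congr_s (s' := fun i => s2 i ^ 2 * s3 i ^ 2)
      fun i => by ring).sub ((yz.mul yz).congr_s fun i => by ring))).congr_s fun i => by ring
  have a2 : S.FO μ (fun i => s1 i ^ 2 * s2 i ^ 2 * s3 i ^ 2)
      (fun i => dot (x i) (y i) * (dot (x i) (y i) * dot (z i) (z i)
        - dot (y i) (z i) * dot (x i) (z i))) := by
    refine (xy.mul (((xy.mul zz).congr_s (s' := fun i => s1 i * s2 i * s3 i ^ 2)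
      fun i => by ring).sub ((yz.mul xz).congr_s fun i => by ring))).congr_s fun i => by ring
  have a3 : S.FO μ (fun i => s1 i ^ 2 * s2 i ^ 2 * s3 i ^ 2)
      (fun i => dot (x i) (z i) * (dot (x i) (y i) * dot (y i) (z i)
        - dot (y i) (y i) * dot (x i) (z i))) := by
    refine (xz.mul (((xy.mul yz).congr_s (s' := fun i => s1 i * s2 i ^ 2 * s3 i)
      fun i => by ring).sub ((yy.mul xz).congr_s fun i => by ring))).congr_s fun i => by ring
  exact (a1.sub a2).add a3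

/-! ### second derivatives in a box -/

namespace Boxes

variable {C : Type} [Fintype C] {G : κ → κ → P → ℂ} {κ0 : ℝ} (B : Boxes S C G κ0)

/-- second derivatives in a box -/
theorem snd_der {u : P → ℂ} (hu : S.Sm u) (c : C) {p : P} (hp : p ∈ B.K c) (j k : κ) :
    S.D j (S.D k u) p = ∑ i, S.D j (S.D k (B.x c i)) p * S.dir (B.Y c i) u p
      + ∑ i, ∑ l, S.D k (B.x c i) p * S.D j (B.x c l) p
        * S.dir (B.Y c l) (S.dir (B.Y c i) u) p := by
  have hsY : ∀ i, S.Sm (S.dir (B.Y c i) u) := fun i => S.sm_dir (B.smY c i) hu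
  have hsx : ∀ i, S.Sm (S.D k (B.x c i)) := fun i => S.sm_D k (B.smx c i)
  have hs1 : S.Sm (fun p => ∑ i, (S.D k (B.x c i) * S.dir (B.Y c i) u) p) :=
    S.sm_sum' (A := Finset.univ) (u := fun i => S.D k (B.x c i) * S.dir (B.Y c i) u)
      fun i _ => S.sm_mul (hsx i) (hsY i)
  have h0 := B.loc c (S.D k u - fun p => ∑ i, (S.D k (B.x c i) * S.dir (B.Y c i) u) p)
    (S.sm_sub (S.sm_D k hu) hs1) (fun q hq => ?_) j p hp
  · rw [S.D_sub_apply j (S.sm_D k hu) hs1, sub_eq_zero] at h0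
    rw [h0, S.D_sum_apply (A := Finset.univ) (u := fun i => S.D k (B.x c i) * S.dir (B.Y c i) u)
      j fun i _ => S.sm_mul (hsx i) (hsY i), ← Finset.sum_add_distrib]
    refine Finset.sum_congr rfl fun i _ => ?_
    rw [S.D_mul_apply j (hsx i) (hsY i), B.dec c _ (hsY i) j p hp, Finset.mul_sum]
    congr 1
    exact Finset.sum_congr rfl fun l _ => by ring
  · rw [Pi.sub_apply, B.dec c u hu k q hq, sub_eq_zero]
    rfl

/-- second derivative along the kernel direction of the covector `l` -/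
def V (X : Fin 4 → P → ℂ) (c : C) (l : Fin 2 → ℝ) : Fin 4 → P → ℂ := fun a p =>
  ((l 1 ^ 2 : ℝ) : ℂ) * S.dir (B.Y c 0) (S.dir (B.Y c 0) (X a)) p
    - ((l 0 * l 1 : ℝ) : ℂ) * (S.dir (B.Y c 0) (S.dir (B.Y c 1) (X a)) p
      + S.dir (B.Y c 1) (S.dir (B.Y c 0) (X a)) p)
    + ((l 0 ^ 2 : ℝ) : ℂ) * S.dir (B.Y c 1) (S.dir (B.Y c 1) (X a)) p

/-- the nondegeneracy function of the covector `l` -/
def N (X : Fin 4 → P → ℂ) (c : C) (l : Fin 2 → ℝ) : P → ℂ :=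
  gram3 (S.dirv (B.Y c 0) X) (S.dirv (B.Y c 1) X) (B.V X c l)

/-- real second derivatives -/
def YY (X : Fin 4 → P → ℂ) (c : C) (p : P) (i j : Fin 2) : Fin 4 → ℝ :=
  fun a => (S.dir (B.Y c i) (S.dir (B.Y c j) (X a)) p).re

variable {X : Fin 4 → P → ℂ}

theorem rl_dir2 (hX : ∀ a, S.Sm (X a)) (hXr : ∀ a, Rl (X a)) (c : C) (i j : Fin 2) (a : Fin 4) :
    Rl (S.dir (B.Y c i) (S.dir (B.Y c j) (X a))) :=
  Rl.dir (B.rY c i) (S.sm_dir (B.smY c j) (hX a)) (Rl.dir (B.rY c j) (hX a) (hXr a))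

theorem rl_dir1 (hX : ∀ a, S.Sm (X a)) (hXr : ∀ a, Rl (X a)) (c : C) (i : Fin 2) (a : Fin 4) :
    Rl (S.dirv (B.Y c i) X a) := Rl.dir (B.rY c i) (hX a) (hXr a)

theorem rv_V (X : Fin 4 → P → ℂ) (c : C) (l : Fin 2 → ℝ) (p : P) :
    rv (B.V X c l) p = vv (B.YY X c p) l := by
  funext a
  simp only [rv, V, vv, YY, Pi.add_apply, Pi.sub_apply, Pi.smul_apply, smul_eq_mul,
    Complex.add_re, Complex.sub_re, Complex.re_ofReal_mul]

theorem rl_V (hX : ∀ a, S.Sm (X a)) (hXr : ∀ a, Rl (X a)) (c : C) (l : Fin 2 → ℝ) (a : Fin 4) :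
    Rl (B.V X c l a) := fun p => by
  have h := fun i j => B.rl_dir2 hX hXr c i j a p
  simp only [V, Complex.add_im, Complex.sub_im, Complex.im_ofReal_mul, h]
  ring

theorem sm_V (hX : ∀ a, S.Sm (X a)) (c : C) (l : Fin 2 → ℝ) (a : Fin 4) :
    S.Sm (B.V X c l a) := by
  have h := fun i j => S.sm_dir (B.smY c i) (S.sm_dir (B.smY c j) (hX a))
  exact S.sm_add (S.sm_sub (S.sm_smul _ (h 0 0)) (S.sm_smul _ (S.sm_add (h 0 1) (h 1 0))))
    (S.sm_smul _ (h 1 1))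

theorem rl_N (hX : ∀ a, S.Sm (X a)) (hXr : ∀ a, Rl (X a)) (c : C) (l : Fin 2 → ℝ) :
    Rl (B.N X c l) :=
  gram3_rl (B.rl_dir1 hX hXr c 0) (B.rl_dir1 hX hXr c 1) (B.rl_V hX hXr c l)

theorem sm_N (hX : ∀ a, S.Sm (X a)) (c : C) (l : Fin 2 → ℝ) : S.Sm (B.N X c l) :=
  sm_gram3 (fun a => S.sm_dir (B.smY c 0) (hX a)) (fun a => S.sm_dir (B.smY c 1) (hX a))
    (B.sm_V hX c l)

theorem re_N (hX : ∀ a, S.Sm (X a)) (hXr : ∀ a, Rl (X a)) (c : C) (l : Fin 2 → ℝ) (p : P) :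
    (B.N X c l p).re = gR (rv (S.dirv (B.Y c 0) X) p) (rv (S.dirv (B.Y c 1) X) p)
      (vv (B.YY X c p) l) := by
  unfold N
  rw [gram3_re (B.rl_dir1 hX hXr c 0) (B.rl_dir1 hX hXr c 1) (B.rl_V hX hXr c l), B.rv_V]

theorem rv_Dv (hX : ∀ a, S.Sm (X a)) (hXr : ∀ a, Rl (X a)) (c : C) {p : P} (hp : p ∈ B.K c)
    (j : κ) : rv (S.Dv j X) p = (S.D j (B.x c 0) p).re • rv (S.dirv (B.Y c 0) X) p
      + (S.D j (B.x c 1) p).re • rv (S.dirv (B.Y c 1) X) p := by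
  funext a
  have h := B.dec c (X a) (hX a) j p hp
  have h1 := fun i => S.rl_D j (B.smx c i) (B.rx c i) p
  have h2 := fun i => B.rl_dir1 hX hXr c i a p
  simp only [DAlg.dirv] at h2
  simp only [rv, DAlg.Dv, DAlg.dirv, Pi.add_apply, Pi.smul_apply, smul_eq_mul]
  rw [h, Fin.sum_univ_two, Complex.add_re, Complex.mul_re, Complex.mul_re, h1, h1]
  ring

theorem rv_DDv (hX : ∀ a, S.Sm (X a)) (hXr : ∀ a, Rl (X a)) (c : C) {p : P} (hp : p ∈ B.K c)
    (j k : κ) : rv (S.Dv j (S.Dv k X)) p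
      = (∑ l, ∑ i, ((S.D j (B.x c l) p).re * (S.D k (B.x c i) p).re) • B.YY X c p l i)
        + ((S.D j (S.D k (B.x c 0)) p).re • rv (S.dirv (B.Y c 0) X) p
        + (S.D j (S.D k (B.x c 1)) p).re • rv (S.dirv (B.Y c 1) X) p) := by
  funext a
  have h := B.snd_der (hX a) c hp j k
  have h1 := fun i => S.rl_D j (B.smx c i) (B.rx c i) p
  have h1' := fun i => S.rl_D k (B.smx c i) (B.rx c i) p
  have h2 := fun i => B.rl_dir1 hX hXr c i a p
  have h3 := fun i l => B.rl_dir2 hX hXr c i l a p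
  have h4 := fun i => S.rl_D j (S.sm_D k (B.smx c i)) (S.rl_D k (B.smx c i) (B.rx c i)) p
  simp only [DAlg.dirv] at h2
  simp only [rv, DAlg.Dv, DAlg.dirv, YY, Pi.add_apply, Pi.smul_apply, smul_eq_mul,
    Fin.sum_univ_two]
  rw [h]
  simp only [Fin.sum_univ_two, Complex.add_re, Complex.mul_re, Complex.mul_im, h1, h1', h2, h3,
    h4]
  ring

/-- **a good triple exists** -/
theorem good (hX : ∀ a, S.Sm (X a)) (hXr : ∀ a, Rl (X a)) {c0 b BB Cq : ℝ} (hc0 : 0 < c0)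
    (hb : 0 < b) (hBB : 0 ≤ BB) (hCq : 30976 * BB ^ 8 < c0 * Cq) (c : C) {p : P}
    (hp : p ∈ B.K c) (hx : ∀ i j, ‖S.D j (B.x c i) p‖ ≤ BB)
    (h : ∃ j1 j2 j k, c0 * b ^ 2 ≤
      (gram3 (S.Dv j1 X) (S.Dv j2 X) (S.Dv j (S.Dv k X)) p).re) :
    ∃ τ, ∀ r, b ^ 2 / Cq ≤ (B.N X c (dl τ r) p).re := by
  have hCq0 : 0 < Cq := by
    by_contra hneg
    rw [not_lt] at hneg
    have h1 : c0 * Cq ≤ 0 := mul_nonpos_of_nonneg_of_nonpos hc0.le hneg
    have h2 : 0 ≤ 30976 * BB ^ 8 := by positivity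
    linarith
  by_contra hcon
  push Not at hcon
  choose r hr using hcon
  obtain ⟨j1, j2, j, k, hg⟩ := h
  have hD1 : ∀ j a, Rl (S.Dv j X a) := fun j a => S.rl_D j (hX a) (hXr a)
  have hD2 : ∀ a, Rl (S.Dv j (S.Dv k X) a) := fun a =>
    S.rl_D j (S.sm_D k (hX a)) (S.rl_D k (hX a) (hXr a))
  rw [gram3_re (hD1 j1) (hD1 j2) hD2, B.rv_Dv hX hXr c hp, B.rv_Dv hX hXr c hp,
    B.rv_DDv hX hXr c hp] at hg
  have hre : ∀ i j, |(S.D j (B.x c i) p).re| ≤ BB := fun i j =>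
    (Complex.abs_re_le_norm _).trans (hx i j)
  have hY : B.YY X c p 1 0 = B.YY X c p 0 1 := by
    funext a
    simp only [YY]
    rw [B.comm c (X a) (hX a) p hp]
  have hσ : 0 ≤ b / √Cq := by positivity
  have hσ2 : (b / √Cq) ^ 2 = b ^ 2 / Cq := by rw [div_pow, Real.sq_sqrt hCq0.le]
  have key := key_gR (x := rv (S.dirv (B.Y c 0) X) p) (y := rv (S.dirv (B.Y c 1) X) p)
    (Y := B.YY X c p) hY (σ := b / √Cq) (B := BB) hσ r (fun τ => ?_)
    (A := fun l i => (S.D j (B.x c l) p).re * (S.D k (B.x c i) p).re)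
    (α := (S.D j (S.D k (B.x c 0)) p).re) (β := (S.D j (S.D k (B.x c 1)) p).re)
    (fun l i => ?_) (hre 0 j1) (hre 1 j1) (hre 0 j2) (hre 1 j2)
  · rw [hσ2] at key
    have h1 := hg.trans key
    have h2 : 30976 * BB ^ 8 * (b ^ 2 / Cq) < c0 * b ^ 2 := by
      rw [← mul_div_assoc, div_lt_iff₀ hCq0]
      have hb2 : 0 < b ^ 2 := pow_pos hb 2
      nlinarith
    linarith
  · rw [hσ2, ← B.re_N hX hXr]
    exact (hr τ).le
  · rw [abs_mul, pow_two]
    exact mul_le_mul (hre l j) (hre i k) (abs_nonneg _) hBB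

/-! ### bounds for families -/

section family

variable {ι : Type*} {θ b : ι → ℝ} {f : ι → Fin 4 → P → ℂ}

theorem FO_dir1 (hθ : ∀ i, 1 ≤ θ i)
    (h1 : ∀ j a, S.FO θ (fun _ => 1) (fun i => S.D j (f i a))) (c : C) (l : Fin 2) (a : Fin 4) :
    S.FO θ (fun _ => 1) (fun i => S.dir (B.Y c l) (f i a)) := by
  have h := DAlg.FO.sum' (S := S) (A := (Finset.univ : Finset κ)) (μ := θ) (s := fun _ => 1)
    (u := fun j i => B.Y c l j * S.D j (f i a)) fun j _ =>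
    ((DAlg.FO.fixed hθ (B.smY c l j)).mul (h1 j a)).congr_s fun i => by norm_num
  exact h

theorem FO_dir2 (hθ : ∀ i, 1 ≤ θ i) (hb : ∀ i, 1 ≤ b i) (hsm : ∀ i a, S.Sm (f i a))
    (h1 : ∀ j a, S.FO θ (fun _ => 1) (fun i => S.D j (f i a)))
    (h2 : ∀ j k a, S.FO θ b (fun i => S.D j (S.D k (f i a)))) (c : C) (l m : Fin 2)
    (a : Fin 4) : S.FO θ b (fun i => S.dir (B.Y c l) (S.dir (B.Y c m) (f i a))) := by
  have hθ0 : ∀ i, 0 ≤ θ i := fun i => zero_le_one.trans (hθ i)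
  have hD : ∀ j, S.FO θ b (fun i => S.D j (S.dir (B.Y c m) (f i a))) := by
    intro j
    have e1 : ∀ k, S.FO θ b (fun i => S.D j (B.Y c m k) * S.D k (f i a)
        + B.Y c m k * S.D j (S.D k (f i a))) := fun k => by
      have a1 := ((DAlg.FO.fixed (ι := ι) hθ (S.sm_D j (B.smY c m k))).mul (h1 k a)).mono_s'
        (s' := b) (fun i => by simpa using hb i) hθ0
      have a2 := ((DAlg.FO.fixed (ι := ι) hθ (B.smY c m k)).mul (h2 j k a)).congr_s
        (s' := b) fun i => by simp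
      exact a1.add a2
    have h := DAlg.FO.sum' (S := S) (A := (Finset.univ : Finset κ)) (μ := θ) (s := b)
      (u := fun k i => S.D j (B.Y c m k) * S.D k (f i a)
        + B.Y c m k * S.D j (S.D k (f i a))) fun k _ => e1 k
    refine h.congr fun i p => ?_
    have h3 : S.D j (S.dir (B.Y c m) (f i a)) p
        = ∑ k, S.D j (B.Y c m k * S.D k (f i a)) p :=
      S.D_sum_apply (A := Finset.univ) (u := fun k => B.Y c m k * S.D k (f i a)) j
        (fun k _ => S.sm_mul (B.smY c m k) (S.sm_D k (hsm i a))) p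
    rw [h3]
    refine Finset.sum_congr rfl fun k _ => ?_
    rw [S.D_mul_apply j (B.smY c m k) (S.sm_D k (hsm i a))]
    rfl
  have h := DAlg.FO.sum' (S := S) (A := (Finset.univ : Finset κ)) (μ := θ) (s := b)
    (u := fun j i => B.Y c l j * S.D j (S.dir (B.Y c m) (f i a))) fun j _ =>
    ((DAlg.FO.fixed hθ (B.smY c l j)).mul (hD j)).congr_s fun i => by simp
  exact h

theorem FO_V (hθ : ∀ i, 1 ≤ θ i) (hb : ∀ i, 1 ≤ b i) (hsm : ∀ i a, S.Sm (f i a))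
    (h1 : ∀ j a, S.FO θ (fun _ => 1) (fun i => S.D j (f i a)))
    (h2 : ∀ j k a, S.FO θ b (fun i => S.D j (S.D k (f i a)))) (c : C) (l : Fin 2 → ℝ)
    (a : Fin 4) : S.FO θ b (fun i => B.V (f i) c l a) := by
  have h := fun i j => B.FO_dir2 hθ hb hsm h1 h2 c i j a
  exact (((h 0 0).const_mul _).sub (((h 0 1).add (h 1 0)).const_mul _)).add
    ((h 1 1).const_mul _)

theorem FO_N (hθ : ∀ i, 1 ≤ θ i) (hb : ∀ i, 1 ≤ b i) (hsm : ∀ i a, S.Sm (f i a))
    (h1 : ∀ j a, S.FO θ (fun _ => 1) (fun i => S.D j (f i a)))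
    (h2 : ∀ j k a, S.FO θ b (fun i => S.D j (S.D k (f i a)))) (c : C) (l : Fin 2 → ℝ) :
    S.FO θ (fun i => b i ^ 2) (fun i => B.N (f i) c l) := by
  have h := FO_gram3 (S := S) (x := fun i => S.dirv (B.Y c 0) (f i))
    (y := fun i => S.dirv (B.Y c 1) (f i)) (z := fun i => B.V (f i) c l)
    (fun a => B.FO_dir1 hθ h1 c 0 a) (fun a => B.FO_dir1 hθ h1 c 1 a)
    (fun a => B.FO_V hθ hb hsm h1 h2 c l a)
  exact h.congr_s fun i => by ring

end family

end Boxes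

end Vale.Agent.P205.F
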