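import Vale.Agent.P205.PC.Fam
import Vale.Agent.P205.PC.Dec2

/-!
**The pieces exist** (P205, full question, block PC): `theorem DAlg.pieces : S.Pieces`.
-/

noncomputable section

namespace Vale.Agent.P205.F

open scoped ContDiff
open Vale.Agent.P205.PC (dR gR vv dl lc lam dl_sq dl_abs gR_eq abs_M_le)

universe u

variable {P : Type u} {κ : Type} [Fintype κ] {S : DAlg P κ}

/-- uniform bound of finitely many smooth functions -/
theorem exists_bdd {J : Type*} [Finite J] {u : J → P → ℂ} (hu : ∀ j, S.Sm (u j)) :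
    ∃ C : ℝ, 1 ≤ C ∧ ∀ j p, ‖u j p‖ ≤ C := by
  classical
  have := Fintype.ofFinite J
  choose C hC using fun j => S.bdd (hu j)
  refine ⟨1 + ∑ j, |C j|, le_add_of_nonneg_right (Finset.sum_nonneg fun j _ => abs_nonneg _),
    fun j p => ?_⟩
  have h1 : |C j| ≤ ∑ j, |C j| :=
    Finset.single_le_sum (f := fun j => |C j|) (fun j _ => abs_nonneg _) (Finset.mem_univ j)
  linarith [hC j p, le_abs_self (C j)]

/-- uniform bound of finitely many families -/
theorem exists_fo {J ι : Type*} [Finite J] {μ s : ι → ℝ} (hs : ∀ i, 0 ≤ s i)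
    {u : J → ι → P → ℂ} (hu : ∀ j, S.FO μ s (u j)) :
    ∃ C : ℝ, 0 ≤ C ∧ ∀ j i p, ‖u j i p‖ ≤ C * s i := by
  classical
  have := Fintype.ofFinite J
  choose C hC0 hC using fun j => (hu j).apply
  refine ⟨∑ j, C j, Finset.sum_nonneg fun j _ => hC0 j, fun j i p => (hC j i p).trans ?_⟩
  exact mul_le_mul_of_nonneg_right
    (Finset.single_le_sum (f := C) (fun j _ => hC0 j) (Finset.mem_univ j)) (hs i)

section

variable {C : Type} [Fintype C] {G : κ → κ → P → ℂ} {κ0 : ℝ} (B : Boxes S C G κ0)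

/-- the pieces -/
def pdat (f : Fin 4 → P → ℂ) (A H : ℝ) : PData P κ (PQ C) where
  ray a := (prm B H (KS B f A (Sum.inl a)) (Sum.inl a)).ray S
  pr a b σ := (prm B H (KS B f A (Sum.inr (a, b, σ))) (Sum.inr (a, b, σ))).ray S
  χ a := B.ρ a.1 * wt S (B.Y a.1) f A a.2.1
  ℓ a j k := B.el a.1 a.2.1 a.2.2 (H ^ pidx a) j k

theorem pdat_rays (f : Fin 4 → P → ℂ) (A H : ℝ) (x) :
    (pdat B f A H).rays x = (prm B H (KS B f A x) x).ray S := by
  rcases x with a | ⟨a, b, σ⟩ <;> rfl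

theorem phase_ph (H : ℝ) (K : Set P) (a : PQ C) :
    ((prm B H K (Sum.inl a)).ray S).Ψ = B.ph a.1 (dl a.2.1 a.2.2) (H ^ pidx a) := by
  rw [phase_inl]
  funext p
  simp only [phi, Boxes.ph, Fin.sum_univ_two]

theorem pdat_K (f : Fin 4 → P → ℂ) (A H : ℝ) (a : PQ C) :
    ((pdat B f A H).ray a).K = KK B f A a := rfl

variable {B}

theorem pdat_ok {f : Fin 4 → P → ℂ} (hf : ∀ a, S.Sm (f a)) (hr : ∀ a, Rl (f a)) {A H Cψ : ℝ}
    (hH : 1 ≤ H) (hC : 0 ≤ Cψ) (hψ : ∀ (c : C) i (a : PQ C) p,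
      ‖S.dir (B.Y c i) (phi B a) p‖ ≤ Cψ) (he : Cψ / H ≤ 1 / 24)
    (hg : ∀ c, ∀ p ∈ B.K c, ∃ τ, ∀ r, 2 ≤ A * (qg S (B.Y c) f (dl τ r) p).re) :
    (pdat B f A H).Ok S := by
  have hH0 : 0 < H := zero_lt_one.trans_le hH
  have hray : ∀ x, ((prm B H (KS B f A x) x).ray S).Ok S := fun x => by
    obtain ⟨a, s, h⟩ := prm_good (f := f) (A := A) hH hC hψ x le_rfl
    exact (h.ok he).ray_ok
  have swt : ∀ a : PQ C, S.Sm (wt S (B.Y a.1) f A a.2.1) := fun a =>
    sm_wt (B.smY a.1) (B.rY a.1) hf hr A a.2.1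
  have hχsum : ∀ c p, ∑ τ, (B.ρ c * wt S (B.Y c) f A τ) p ^ 2 = B.ρ c p ^ 2 := fun c p => by
    by_cases hp : p ∈ B.K c
    · have h1 := wt_sum A (hg c p hp)
      simp only [Pi.mul_apply, mul_pow]
      rw [← Finset.mul_sum, h1, mul_one]
    · have h0 : B.ρ c p = 0 := (B.zρ c).apply hp
      simp only [Pi.mul_apply, h0, zero_mul]
      simp
  exact
  { ray := fun a => hray (Sum.inl a)
    pr := fun a b σ _ => hray (Sum.inr (a, b, σ))
    prΨ := fun a b => by
      show ((prm B H (KS B f A (Sum.inr (a, b, true))) (Sum.inr (a, b, true))).ray S).Ψ =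
        ((prm B H (KS B f A (Sum.inl a)) (Sum.inl a)).ray S).Ψ
          + ((prm B H (KS B f A (Sum.inl b)) (Sum.inl b)).ray S).Ψ
      rw [prm_Ψ B H (KS B f A (Sum.inr (a, b, true))),
        prm_Ψ B H (KS B f A (Sum.inl a)), prm_Ψ B H (KS B f A (Sum.inl b))]
      exact phase_true B H ∅ a b
    prΨ' := fun a b hab => by
      show ((prm B H (KS B f A (Sum.inr (a, b, false))) (Sum.inr (a, b, false))).ray S).Ψ =
        ((prm B H (KS B f A (Sum.inl a)) (Sum.inl a)).ray S).Ψ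
          - ((prm B H (KS B f A (Sum.inl b)) (Sum.inl b)).ray S).Ψ
      rw [prm_Ψ B H (KS B f A (Sum.inr (a, b, false))),
        prm_Ψ B H (KS B f A (Sum.inl a)), prm_Ψ B H (KS B f A (Sum.inl b))]
      exact phase_false B H ∅ hab
    prK := fun a b σ => prm_K B H (KS B f A (Sum.inr (a, b, σ))) (Sum.inr (a, b, σ))
    smχ := fun a => S.sm_mul (B.smρ _) (swt a)
    rχ := fun a => (B.rρ _).mul (rl_wt A _)
    zχ := fun a => by
      rw [pdat_K]
      intro w p hp
      by_cases hpK : p ∈ B.K a.1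
      · have h1 : ∃ r, ¬ (1 ≤ A * (qg S (B.Y a.1) f (dl a.2.1 r) p).re) := by
          by_contra hcon
          push Not at hcon
          exact hp ⟨hpK, fun r => hcon r⟩
        obtain ⟨r, h1⟩ := h1
        exact DAlg.Zs.mul_right (B.smρ a.1) (swt a)
          (zs_wt (B.smY a.1) (B.rY a.1) hf hr A a.2.1 r) w p h1
      · exact DAlg.Zs.mul_left (B.smρ a.1) (swt a) (B.zρ a.1) w p hpK
    smℓ := fun a j k => B.sm_el _ _ _ _ j k
    rℓ := fun a j k => B.rl_el _ _ _ _ j k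
    dec := fun T hT j k p => by
      have h1 := B.dec_all hT (Λ := fun c τ r => H ^ pidx (c, τ, r))
        (fun c τ r => (pow_pos hH0 _).ne')
        (χ := fun c τ => B.ρ c * wt S (B.Y c) f A τ) hχsum (fun c τ p hp => by
          rw [Pi.mul_apply, (B.zρ c).apply hp, zero_mul]) j k p
      rw [h1, Fintype.sum_prod_type]
      refine Finset.sum_congr rfl fun c _ => ?_
      rw [Fintype.sum_prod_type]
      refine Finset.sum_congr rfl fun τ _ => Finset.sum_congr rfl fun r _ => ?_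
      simp only [pdat, PData.ell, phase_ph] }

end

/-- **(PC)** the pieces exist -/
theorem DAlg.pieces (S : DAlg P κ) : S.Pieces := by
  classical
  refine ⟨1 / 200, by norm_num, fun C _ G hGT hGr hGs B => ?_⟩
  obtain ⟨BY, hBY1, hBY⟩ := exists_bdd (S := S) (J := C × Fin 2 × κ)
    (u := fun x => B.Y x.1 x.2.1 x.2.2) fun x => B.smY _ _ _
  obtain ⟨BX, hBX1, hBX⟩ := exists_bdd (S := S) (J := C × Fin 2 × κ)
    (u := fun x => S.D x.2.2 (B.x x.1 x.2.1)) fun x => S.sm_D _ (B.smx _ _)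
  obtain ⟨Cψ, hCψ1, hCψ⟩ := exists_bdd (S := S) (J := C × Fin 2 × PQ C)
    (u := fun x => S.dir (B.Y x.1 x.2.1) (phi B x.2.2)) fun x => S.sm_dir (B.smY _ _) (sm_phi _)
  have hBY0 : 0 ≤ BY := zero_le_one.trans hBY1
  have hBX0 : 0 < BX := zero_lt_one.trans_le hBX1
  have hCψ0 : 0 ≤ Cψ := zero_le_one.trans hCψ1
  set κ1 : ℝ := 1 / (200 * ((Fintype.card κ : ℝ) ^ 2 * BY ^ 2 + 1)) with hκ1
  have hden : 0 < (Fintype.card κ : ℝ) ^ 2 * BY ^ 2 + 1 := by positivity
  have hκ1pos : 0 < κ1 := by positivity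
  have hκ1le : (Fintype.card κ : ℝ) ^ 2 * BY ^ 2 * κ1 ≤ 1 / 200 := by
    rw [hκ1, mul_one_div, div_le_div_iff₀ (by positivity) (by norm_num)]
    nlinarith
  refine ⟨κ1, hκ1pos, fun ι θ b f c0 hc0 hb hbθ hf hr h1 h2 hnd => ?_⟩
  have hθ : ∀ i, 1 ≤ θ i := fun i => (hb i).trans (hbθ i)
  have hb0 : ∀ i, 0 < b i := fun i => zero_lt_one.trans_le (hb i)
  -- bounds of the first and second derivatives in the boxes
  obtain ⟨C1, hC10, hC1⟩ := exists_fo (S := S) (J := C × Fin 2 × Fin 4) (s := fun _ => 1)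
    (μ := θ) (fun _ => zero_le_one) (u := fun x i => S.dirv (B.Y x.1 x.2.1) (f i) x.2.2)
    fun x => fo_dirv hθ (B.smY x.1) h1 x.2.1 x.2.2
  obtain ⟨C2, hC20, hC2⟩ := exists_fo (S := S) (J := C × Fin 2 × Fin 2 × Fin 4) (s := b)
    (μ := θ) (fun i => (hb0 i).le)
    (u := fun x i => S.dir (B.Y x.1 x.2.1) (S.dir (B.Y x.1 x.2.2.1) (f i x.2.2.2)))
    fun x => fo_ddv hθ hb (B.smY x.1) hf h1 h2 x.2.1 x.2.2.1 x.2.2.2
  set CM : ℝ := 6 * (C1 * C1 * C2) with hCM
  have hCM0 : 0 ≤ CM := by positivity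
  -- threshold
  set Cq : ℝ := 30977 * BX ^ 8 / c0 with hCq
  have hCq0 : 0 < Cq := by positivity
  set A0 : ℝ := 2 * Cq with hA0def
  have hA0 : 0 < A0 := by positivity
  -- lacunary constant
  set H : ℝ := 1 + 24 * Cψ + 112 * (Cψ * CM) * √A0 with hHdef
  have hsq : 0 ≤ √A0 := Real.sqrt_nonneg _
  have hH1 : 1 ≤ H := by
    have h3 : 0 ≤ 24 * Cψ := by positivity
    have h4 : 0 ≤ 112 * (Cψ * CM) * √A0 := by positivity
    rw [hHdef]; linarith
  have hH0 : 0 < H := zero_lt_one.trans_le hH1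
  have he : Cψ / H ≤ 1 / 24 := by
    rw [div_le_div_iff₀ hH0 (by norm_num)]
    have h4 : 0 ≤ 112 * (Cψ * CM) * √A0 := by positivity
    rw [hHdef]; linarith
  have he0 : 0 ≤ Cψ / H := by positivity
  have hsm : 112 * (Cψ / H * CM) * √A0 ≤ 1 := by
    have e1 : 112 * (Cψ / H * CM) * √A0 = 112 * (Cψ * CM) * √A0 / H := by ring
    rw [e1, div_le_one hH0, hHdef]
    have h3 : 0 ≤ 24 * Cψ := by positivity
    linarith
  have hψ : ∀ (c : C) i (a : PQ C) p, ‖S.dir (B.Y c i) (phi B a) p‖ ≤ Cψ :=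
    fun c i a p => hCψ (c, i, a) p
  -- the good triple
  have hg : ∀ i c, ∀ p ∈ B.K c, ∃ τ, ∀ r,
      2 ≤ A0 / b i ^ 2 * (qg S (B.Y c) (f i) (dl τ r) p).re := by
    intro i c p hp
    by_contra hcon
    push Not at hcon
    choose r hr' using hcon
    obtain ⟨j1, j2, j, k, hlow⟩ := hnd i p
    have hbi := hb0 i
    have hb2 : 0 < b i ^ 2 := by positivity
    have hle := B.gram_le c (hf i) (hr i) (b := BX) (fun m l q => hBX (c, m, l) q)
      (σ := √(b i ^ 2 / Cq)) (Real.sqrt_nonneg _) hp r (fun τ => by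
        rw [Real.sq_sqrt (by positivity), ← qg_re (B.smY c) (B.rY c) (hf i) (hr i)]
        have h5 := hr' τ
        rw [div_mul_eq_mul_div, div_lt_iff₀ hb2, hA0def] at h5
        rw [le_div_iff₀ hCq0]
        nlinarith) j1 j2 j k
    rw [Real.sq_sqrt (by positivity)] at hle
    have h6 : 30976 * BX ^ 8 * (b i ^ 2 / Cq) < c0 * b i ^ 2 := by
      rw [hCq]
      have e2 : 30976 * BX ^ 8 * (b i ^ 2 / (30977 * BX ^ 8 / c0)) =
          30976 / 30977 * (c0 * b i ^ 2) := by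
        field_simp
      rw [e2]
      have : 0 < c0 * b i ^ 2 := by positivity
      linarith
    linarith
  have hok : ∀ i, (pdat B (f i) (A0 / b i ^ 2) H).Ok S := fun i =>
    pdat_ok (hf i) (hr i) hH1 hCψ0 hψ he (hg i)
  have hgood := fun i x => prm_good (B := B) (f := f i) (A := A0 / b i ^ 2) hH1 hCψ0 hψ
    (K := KS B (f i) (A0 / b i ^ 2) x) x le_rfl
  -- rays without region
  have hfix : ∀ x, ((prm B H ∅ x).ray S).Ok S := fun x => by
    obtain ⟨a, s, h⟩ := prm_good (B := B) (f := fun _ _ => 0) (A := 0) hH1 hCψ0 hψ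
      (K := ∅) x (Set.empty_subset _)
    exact (h.ok he).ray_ok
  set Mx : ℝ := 2 * H ^ Fintype.card (PQ C) with hMx
  have hMx0 : 0 < Mx := by positivity
  set c1 : ℝ := min (1 / (16 * A0 * Mx ^ 2)) (1 / (20 * Mx ^ 2)) with hc1
  have hc1pos : 0 < c1 := lt_min (by positivity) (by positivity)
  have hθ0 : ∀ i, 0 ≤ θ i := fun i => zero_le_one.trans (hθ i)
  refine ⟨PQ C, inferInstance, fun i => pdat B (f i) (A0 / b i ^ 2) H, c1, hc1pos, hok, ?_, ?_,
    ?_⟩
  · exact
    { Ψ := fun x _ j => by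
        have e : (fun i => S.D j ((pdat B (f i) (A0 / b i ^ 2) H).rays x).Ψ) =
            fun _ : ι => S.D j ((prm B H ∅ x).ray S).Ψ := by
          funext i
          rw [pdat_rays, prm_Ψ]
        rw [e]
        exact DAlg.FO.fixed (fun _ => le_rfl) (S.sm_D j (hfix x).smΨ)
      t := fun x _ j => by
        have e : (fun i => ((pdat B (f i) (A0 / b i ^ 2) H).rays x).t j) =
            fun _ : ι => ((prm B H ∅ x).ray S).t j := by
          funext i
          rw [pdat_rays, prm_t]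
        rw [e]
        exact DAlg.FO.fixed (fun _ => le_rfl) ((hfix x).smt j)
      w := fun x _ j => by
        have e : (fun i => ((pdat B (f i) (A0 / b i ^ 2) H).rays x).w j) =
            fun _ : ι => ((prm B H ∅ x).ray S).w j := by
          funext i
          rw [pdat_rays, prm_w]
        rw [e]
        exact DAlg.FO.fixed (fun _ => le_rfl) ((hfix x).smw j)
      β := fun x _ j => by
        have e : (fun i => ((pdat B (f i) (A0 / b i ^ 2) H).rays x).β j) =
            fun _ : ι => ((prm B H ∅ x).ray S).β j := by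
          funext i
          rw [pdat_rays, prm_β]
        rw [e]
        exact DAlg.FO.fixed (fun _ => le_rfl) ((hfix x).smβ j)
      χ := fun a => ((DAlg.FO.fixed hθ (B.smρ a.1)).mul
        (fo_wt hθ hb (B.smY a.1) (B.rY a.1) hf hr h1 h2 A0 hA0.le a.2.1)).congr_s
          fun i => by ring
      ℓ := fun a j k => DAlg.FO.fixed (fun _ => le_rfl) (B.sm_el _ _ _ _ j k) }
  · intro i x _ p hp
    obtain ⟨a, s, h⟩ := hgood i x
    have hp' : p ∈ (prm B H (KS B (f i) (A0 / b i ^ 2) x) x).K := by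
      have e : ((pdat B (f i) (A0 / b i ^ 2) H).rays x).K =
          (prm B H (KS B (f i) (A0 / b i ^ 2) x) x).K := by
        rw [pdat_rays]
        rfl
      rwa [e] at hp
    have hn := h.nondeg (hf i) (hr i) he0 he hA0 (hb0 i) rfl hp' (CM := CM) (fun m k l => by
      have h3 : ∀ q, |rev (S.dirv (B.Y a.1 0) (f i)) p q| ≤ C1 := fun q => by
        have := hC1 (a.1, 0, q) i p
        rw [mul_one] at this
        exact (Complex.abs_re_le_norm _).trans this
      have h4 : ∀ q, |rev (S.dirv (B.Y a.1 1) (f i)) p q| ≤ C1 := fun q => by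
        have := hC1 (a.1, 1, q) i p
        rw [mul_one] at this
        exact (Complex.abs_re_le_norm _).trans this
      have h5 : ∀ q, |ddv S (B.Y a.1) (f i) p k l q| ≤ C2 * b i := fun q =>
        (Complex.abs_re_le_norm _).trans (hC2 (a.1, k, l, q) i p)
      refine (abs_M_le h3 h4 h5 m).trans (le_of_eq ?_)
      rw [hCM]
      ring) hsm
    rw [pdat_rays]
    refine le_trans ?_ hn
    exact mul_le_mul_of_nonneg_right (min_le_left _ _) (sq_nonneg _)
  · intro i a T hT p hp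
    have hpK : p ∈ B.K a.1 := hp.1
    have h3 := B.el_ge (T := T) a.1 (p := p) (BY := BY) (κ1 := κ1)
      (fun m j => hBY (a.1, m, j) p) hpK (fun j k => hT j k p) (le_refl _) hκ1le a.2.1 a.2.2
      (Λ := H ^ pidx a) (pow_pos hH0 _).ne'
    refine le_trans ?_ h3
    refine (min_le_right _ _).trans ?_
    have h4 : H ^ pidx a ≤ Mx := by
      have h5 : H ^ pidx a ≤ H ^ Fintype.card (PQ C) := pow_le_pow_right₀ hH1 (pidx_le a)
      have h6 : 0 < H ^ Fintype.card (PQ C) := pow_pos hH0 _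
      rw [hMx]
      linarith
    have h7 : 0 < H ^ pidx a := pow_pos hH0 _
    exact one_div_le_one_div_of_le (by positivity)
      (mul_le_mul_of_nonneg_left (pow_le_pow_left₀ h7.le h4 2) (by norm_num))

end Vale.Agent.P205.F
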