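import Vale.Agent.P205.F.StageDef
import Vale.Agent.P205.PC.Comp
import Vale.Agent.P205.PC.Alg

/-!
The rays of the pieces (P205, full question, block PC).

In a coordinate box `x, Y`: the phase `M (l · x) + om ψ` has the covector `M ν`,
`ν = l + (om / M) Yψ`, on the box; `t = (ν · Y) / (M |ν|²)`, `w = ν^⊥ · Y`.
-/

noncomputable section

namespace Vale.Agent.P205.F

open scoped ContDiff
open Vale.Agent.P205.PC

universe u

variable {P : Type u} {κ : Type} [Fintype κ] (S : DAlg P κ)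

/-- data of a ray in a coordinate box -/
structure RIn (P κ : Type*) where
  /-- coordinates -/
  x : Fin 2 → P → ℂ
  /-- coordinate fields -/
  Y : Fin 2 → κ → P → ℂ
  /-- covector -/
  l : Fin 2 → ℝ
  /-- large factor -/
  M : ℝ
  /-- factor of the perturbation -/
  om : ℝ
  /-- perturbation of the phase -/
  ψ : P → ℂ
  /-- region -/
  K : Set P

/-- the covector of the phase divided by `M` -/
def RIn.nu (R : RIn P κ) (i : Fin 2) : P → ℂ :=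
  fun p => (R.l i : ℂ) + ((R.om / R.M : ℝ) : ℂ) * S.dir (R.Y i) R.ψ p

/-- its square -/
def RIn.n2 (R : RIn P κ) : P → ℂ := fun p => R.nu S 0 p * R.nu S 0 p + R.nu S 1 p * R.nu S 1 p

/-- the inverse of the square, cut off -/
def RIn.N (R : RIn P κ) : P → ℂ := fun p => invF (R.n2 S p).re

/-- the ray -/
def RIn.ray (R : RIn P κ) : Ray P κ where
  Ψ := fun p => (R.M : ℂ) * ((R.l 0 : ℂ) * R.x 0 p + (R.l 1 : ℂ) * R.x 1 p) + (R.om : ℂ) * R.ψ p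
  t := fun j p => (((R.M⁻¹ : ℝ) : ℂ) * R.N S p) *
    (R.nu S 0 p * R.Y 0 j p + R.nu S 1 p * R.Y 1 j p)
  w := fun j p => R.nu S 0 p * R.Y 1 j p - R.nu S 1 p * R.Y 0 j p
  β := fun j p => R.N S p * (R.nu S 0 p * S.D j (R.x 1) p - R.nu S 1 p * S.D j (R.x 0) p)
  K := R.K

/-- validity of the data -/
structure RIn.Ok (R : RIn P κ) : Prop where
  smx : ∀ i, S.Sm (R.x i)
  rx : ∀ i, Rl (R.x i)
  smY : ∀ i j, S.Sm (R.Y i j)
  rY : ∀ i j, Rl (R.Y i j)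
  smψ : S.Sm R.ψ
  rψ : Rl R.ψ
  M : 0 < R.M
  Yx : ∀ p ∈ R.K, ∀ i j, S.dir (R.Y i) (R.x j) p = if i = j then 1 else 0
  dec : ∀ u, S.Sm u → ∀ j, ∀ p ∈ R.K, S.D j u p = ∑ i, S.D j (R.x i) p * S.dir (R.Y i) u p
  n2 : ∀ p ∈ R.K, 1 / 2 ≤ (R.n2 S p).re

variable {S}

section basic

variable {R : RIn P κ}

theorem RIn.Ok.sm_nu (h : R.Ok S) (i : Fin 2) : S.Sm (R.nu S i) :=
  S.sm_add (S.sm_const _) (S.sm_smul _ (S.sm_dir (h.smY i) h.smψ))

theorem RIn.Ok.rl_nu (h : R.Ok S) (i : Fin 2) : Rl (R.nu S i) :=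
  (Rl.const (Complex.ofReal_im _)).add
    (Rl.smul (Complex.ofReal_im _) (Rl.dir (h.rY i) h.smψ h.rψ))

theorem RIn.Ok.sm_n2 (h : R.Ok S) : S.Sm (R.n2 S) :=
  S.sm_add (S.sm_mul (h.sm_nu 0) (h.sm_nu 0)) (S.sm_mul (h.sm_nu 1) (h.sm_nu 1))

theorem RIn.Ok.rl_n2 (h : R.Ok S) : Rl (R.n2 S) :=
  ((h.rl_nu 0).mul (h.rl_nu 0)).add ((h.rl_nu 1).mul (h.rl_nu 1))

theorem RIn.Ok.sm_N (h : R.Ok S) : S.Sm (R.N S) := S.sm_comp contDiff_invF h.sm_n2 h.rl_n2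

theorem RIn.Ok.rl_N (_h : R.Ok S) : Rl (R.N S) := fun _ => invF_im _

theorem RIn.Ok.N_mul (h : R.Ok S) {p : P} (hp : p ∈ R.K) : R.N S p * R.n2 S p = 1 := by
  have h1 := h.n2 p hp
  have h2 : ((R.n2 S p).re : ℂ) = R.n2 S p := h.rl_n2.ofReal_re p
  have h3 : ((R.n2 S p).re : ℂ) ≠ 0 := by
    rw [Ne, Complex.ofReal_eq_zero]
    linarith
  rw [RIn.N, invF_eq h1]
  nth_rw 2 [← h2]
  field_simp

/-- derivative along a combination of the coordinate fields -/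
theorem dir_comb (Y : Fin 2 → κ → P → ℂ) (a b : P → ℂ) (u : P → ℂ) (p : P) :
    S.dir (fun j p => a p * Y 0 j p + b p * Y 1 j p) u p
      = a p * S.dir (Y 0) u p + b p * S.dir (Y 1) u p := by
  simp only [DAlg.dir, Finset.mul_sum]
  rw [← Finset.sum_add_distrib]
  exact Finset.sum_congr rfl fun j _ => by ring

theorem RIn.dir_t (R : RIn P κ) (u : P → ℂ) (p : P) :
    S.dir (R.ray S).t u p = (((R.M⁻¹ : ℝ) : ℂ) * R.N S p) *
      (R.nu S 0 p * S.dir (R.Y 0) u p + R.nu S 1 p * S.dir (R.Y 1) u p) := by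
  simp only [DAlg.dir, Finset.mul_sum, RIn.ray]
  rw [← Finset.sum_add_distrib, Finset.mul_sum]
  exact Finset.sum_congr rfl fun j _ => by ring

theorem RIn.dir_w (R : RIn P κ) (u : P → ℂ) (p : P) :
    S.dir (R.ray S).w u p =
      R.nu S 0 p * S.dir (R.Y 1) u p - R.nu S 1 p * S.dir (R.Y 0) u p := by
  simp only [DAlg.dir, Finset.mul_sum, RIn.ray]
  rw [← Finset.sum_sub_distrib]
  exact Finset.sum_congr rfl fun j _ => by ring

theorem RIn.Ok.dir_Ψ (h : R.Ok S) {p : P} (hp : p ∈ R.K) (i : Fin 2) :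
    S.dir (R.Y i) (R.ray S).Ψ p = (R.M : ℂ) * R.nu S i p := by
  have hM : (R.M : ℂ) ≠ 0 := Complex.ofReal_ne_zero.mpr h.M.ne'
  have e : (R.ray S).Ψ = (fun p => (R.M : ℂ) * ((fun p => (R.l 0 : ℂ) * R.x 0 p)
      + fun p => (R.l 1 : ℂ) * R.x 1 p) p) + fun p => (R.om : ℂ) * R.ψ p := rfl
  have s0 := S.sm_smul (R.l 0 : ℂ) (h.smx 0)
  have s1 := S.sm_smul (R.l 1 : ℂ) (h.smx 1)
  rw [e, S.dir_add (S.sm_smul _ (S.sm_add s0 s1)) (S.sm_smul _ h.smψ),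
    S.dir_smul _ (S.sm_add s0 s1), S.dir_add s0 s1, S.dir_smul _ (h.smx 0),
    S.dir_smul _ (h.smx 1), S.dir_smul _ h.smψ, h.Yx p hp i 0, h.Yx p hp i 1]
  simp only [RIn.nu]
  push_cast
  fin_cases i <;> simp <;> field_simp

theorem RIn.Ok.sm_Ψ (h : R.Ok S) : S.Sm (R.ray S).Ψ :=
  S.sm_add (S.sm_smul _ (S.sm_add (S.sm_smul _ (h.smx 0)) (S.sm_smul _ (h.smx 1))))
    (S.sm_smul _ h.smψ)

/-- the ray is valid -/
theorem RIn.Ok.ray_ok (h : R.Ok S) : (R.ray S).Ok S where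
  smΨ := h.sm_Ψ
  smt j := S.sm_mul (S.sm_mul (S.sm_const _) h.sm_N)
    (S.sm_add (S.sm_mul (h.sm_nu 0) (h.smY 0 j)) (S.sm_mul (h.sm_nu 1) (h.smY 1 j)))
  smw j := S.sm_sub (S.sm_mul (h.sm_nu 0) (h.smY 1 j)) (S.sm_mul (h.sm_nu 1) (h.smY 0 j))
  smβ j := S.sm_mul h.sm_N (S.sm_sub (S.sm_mul (h.sm_nu 0) (S.sm_D j (h.smx 1)))
    (S.sm_mul (h.sm_nu 1) (S.sm_D j (h.smx 0))))
  rΨ := (Rl.smul (Complex.ofReal_im _) ((Rl.smul (Complex.ofReal_im _) (h.rx 0)).add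
    (Rl.smul (Complex.ofReal_im _) (h.rx 1)))).add (Rl.smul (Complex.ofReal_im _) h.rψ)
  rt j := ((Rl.const (Complex.ofReal_im _)).mul h.rl_N).mul
    (((h.rl_nu 0).mul (h.rY 0 j)).add ((h.rl_nu 1).mul (h.rY 1 j)))
  rw' j := ((h.rl_nu 0).mul (h.rY 1 j)).sub ((h.rl_nu 1).mul (h.rY 0 j))
  rβ j := h.rl_N.mul (((h.rl_nu 0).mul (S.rl_D j (h.smx 1) (h.rx 1))).sub
    ((h.rl_nu 1).mul (S.rl_D j (h.smx 0) (h.rx 0))))
  tΨ p hp := by
    have hM : (R.M : ℂ) ≠ 0 := Complex.ofReal_ne_zero.mpr h.M.ne'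
    have hN := h.N_mul hp
    simp only [RIn.n2] at hN
    rw [R.dir_t, h.dir_Ψ hp 0, h.dir_Ψ hp 1]
    push_cast
    field_simp
    linear_combination hN
  wΨ p hp := by
    rw [R.dir_w, h.dir_Ψ hp 0, h.dir_Ψ hp 1]
    ring
  dec u hu j p hp := by
    have hM : (R.M : ℂ) ≠ 0 := Complex.ofReal_ne_zero.mpr h.M.ne'
    have hN := h.N_mul hp
    simp only [RIn.n2] at hN
    rw [R.dir_t, R.dir_w, h.dec u hu j p hp, h.dec _ h.sm_Ψ j p hp, Fin.sum_univ_two,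
      Fin.sum_univ_two, h.dir_Ψ hp 0, h.dir_Ψ hp 1]
    simp only [RIn.ray]
    push_cast
    field_simp
    linear_combination (-(S.D j (R.x 0) p * S.dir (R.Y 0) u p
      + S.D j (R.x 1) p * S.dir (R.Y 1) u p)) * hN

end basic

/-! ### the Gram determinant along the ray -/

/-- real part of a vector valued function at a point -/
def rev (X : Fin 4 → P → ℂ) (p : P) : Fin 4 → ℝ := fun a => (X a p).re

theorem dot_re {X Y : Fin 4 → P → ℂ} (hX : ∀ a, Rl (X a)) (_hY : ∀ a, Rl (Y a)) (p : P) :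
    (dot X Y p).re = dR (rev X p) (rev Y p) := by
  simp only [dot, dR, rev, Complex.re_sum, Complex.mul_re]
  exact Finset.sum_congr rfl fun a _ => by rw [hX a p, zero_mul, sub_zero]

theorem gram3_rev {X Y Z : Fin 4 → P → ℂ} (hX : ∀ a, Rl (X a)) (hY : ∀ a, Rl (Y a))
    (hZ : ∀ a, Rl (Z a)) (p : P) :
    (gram3 X Y Z p).re = gR (rev X p) (rev Y p) (rev Z p) := by
  have h0 : ∀ U V : Fin 4 → P → ℂ, (∀ a, Rl (U a)) → (∀ a, Rl (V a)) →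
      dot U V p = ((dR (rev U p) (rev V p) : ℝ) : ℂ) := fun U V hU hV => by
    rw [← dot_re hU hV]
    exact ((Rl.dot hU hV).ofReal_re p).symm
  simp only [gram3, gR]
  rw [h0 X X hX hX, h0 Y Y hY hY, h0 Z Z hZ hZ, h0 X Y hX hY, h0 X Z hX hZ, h0 Y Z hY hZ]
  norm_cast

/-- second derivatives in the box -/
def ddv (S : DAlg P κ) (Y : Fin 2 → κ → P → ℂ) (X : Fin 4 → P → ℂ) (p : P) (i j : Fin 2) :
    Fin 4 → ℝ :=
  rev (S.dirv (Y i) (S.dirv (Y j) X)) p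

theorem gR_add_tan (x y z : Fin 4 → ℝ) (a b : ℝ) : gR x y (z + (a • x + b • y)) = gR x y z := by
  rw [gR_eq, gR_eq]
  refine Finset.sum_congr rfl fun m _ => ?_
  rw [M_add, M_add, M_smul, M_smul, M_fst, M_snd, mul_zero, mul_zero, add_zero, add_zero]

theorem re_mul_im {a : ℂ} (h : a.im = 0) (z : ℂ) : (a * z).re = a.re * z.re := by
  rw [Complex.mul_re, h, zero_mul, sub_zero]

/-- the second derivative along `w` -/
theorem RIn.Ok.dir_ww {R : RIn P κ} (h : R.Ok S) {u : P → ℂ} (hu : S.Sm u) (p : P) :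
    S.dir (R.ray S).w (S.dir (R.ray S).w u) p =
      (R.nu S 1 p * (R.nu S 1 p * S.dir (R.Y 0) (S.dir (R.Y 0) u) p)
      - R.nu S 0 p * (R.nu S 1 p * (S.dir (R.Y 0) (S.dir (R.Y 1) u) p
        + S.dir (R.Y 1) (S.dir (R.Y 0) u) p))
      + R.nu S 0 p * (R.nu S 0 p * S.dir (R.Y 1) (S.dir (R.Y 1) u) p))
      + ((R.nu S 1 p * S.dir (R.Y 0) (R.nu S 1) p - R.nu S 0 p * S.dir (R.Y 1) (R.nu S 1) p)
          * S.dir (R.Y 0) u p
        + (R.nu S 0 p * S.dir (R.Y 1) (R.nu S 0) p - R.nu S 1 p * S.dir (R.Y 0) (R.nu S 0) p)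
          * S.dir (R.Y 1) u p) := by
  have e : S.dir (R.ray S).w u = R.nu S 0 * S.dir (R.Y 1) u - R.nu S 1 * S.dir (R.Y 0) u :=
    funext fun q => R.dir_w u q
  have s0 : S.Sm (S.dir (R.Y 0) u) := S.sm_dir (h.smY 0) hu
  have s1 : S.Sm (S.dir (R.Y 1) u) := S.sm_dir (h.smY 1) hu
  have key : ∀ i, S.dir (R.Y i) (S.dir (R.ray S).w u) p =
      (S.dir (R.Y i) (R.nu S 0) p * S.dir (R.Y 1) u p
        + R.nu S 0 p * S.dir (R.Y i) (S.dir (R.Y 1) u) p)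
      - (S.dir (R.Y i) (R.nu S 1) p * S.dir (R.Y 0) u p
        + R.nu S 1 p * S.dir (R.Y i) (S.dir (R.Y 0) u) p) := fun i => by
    rw [e, S.dir_sub (S.sm_mul (h.sm_nu 0) s1) (S.sm_mul (h.sm_nu 1) s0),
      S.dir_mul (h.sm_nu 0) s1, S.dir_mul (h.sm_nu 1) s0]
  rw [R.dir_w, key 0, key 1]
  ring

theorem RIn.Ok.gram {R : RIn P κ} (h : R.Ok S) {X : Fin 4 → P → ℂ} (hX : ∀ a, S.Sm (X a))
    (hr : ∀ a, Rl (X a)) {p : P} (hp : p ∈ R.K) :
    (gram3 (S.dirv (R.ray S).t X) (S.dirv (R.ray S).w X)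
      (S.dirv (R.ray S).w (S.dirv (R.ray S).w X)) p).re =
      R.M⁻¹ ^ 2 * gR (rev (S.dirv (R.Y 0) X) p) (rev (S.dirv (R.Y 1) X) p)
        (vv (ddv S R.Y X p) (fun i => (R.nu S i p).re)) := by
  have hO := h.ray_ok
  have rt : ∀ a, Rl (S.dirv (R.ray S).t X a) := fun a => Rl.dir hO.rt (hX a) (hr a)
  have rw' : ∀ a, Rl (S.dirv (R.ray S).w X a) := fun a => Rl.dir hO.rw' (hX a) (hr a)
  have sw : ∀ a, S.Sm (S.dirv (R.ray S).w X a) := fun a => S.sm_dir hO.smw (hX a)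
  have rww : ∀ a, Rl (S.dirv (R.ray S).w (S.dirv (R.ray S).w X) a) :=
    fun a => Rl.dir hO.rw' (sw a) (rw' a)
  have n0 := h.rl_nu 0 p
  have n1 := h.rl_nu 1 p
  have nN := h.rl_N p
  rw [gram3_rev rt rw' rww]
  set x := rev (S.dirv (R.Y 0) X) p with hx
  set y := rev (S.dirv (R.Y 1) X) p with hy
  have e1 : rev (S.dirv (R.ray S).t X) p =
      (R.M⁻¹ * ((R.N S p).re * (R.nu S 0 p).re)) • x
        + (R.M⁻¹ * ((R.N S p).re * (R.nu S 1 p).re)) • y := by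
    funext a
    simp only [rev, DAlg.dirv, Pi.add_apply, Pi.smul_apply, smul_eq_mul, hx, hy]
    rw [R.dir_t, mul_assoc, re_mul_im (Complex.ofReal_im _), re_mul_im nN, Complex.add_re,
      re_mul_im n0, re_mul_im n1, Complex.ofReal_re]
    ring
  have e2 : rev (S.dirv (R.ray S).w X) p = (-(R.nu S 1 p).re) • x + (R.nu S 0 p).re • y := by
    funext a
    simp only [rev, DAlg.dirv, Pi.add_apply, Pi.smul_apply, smul_eq_mul, hx, hy]
    rw [R.dir_w, Complex.sub_re, re_mul_im n0, re_mul_im n1]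
    ring
  obtain ⟨A, B, e3⟩ : ∃ A B : ℝ, rev (S.dirv (R.ray S).w (S.dirv (R.ray S).w X)) p =
      vv (ddv S R.Y X p) (fun i => (R.nu S i p).re) + (A • x + B • y) := by
    have hA : ((R.nu S 1 p * S.dir (R.Y 0) (R.nu S 1) p
        - R.nu S 0 p * S.dir (R.Y 1) (R.nu S 1) p) : ℂ).im = 0 :=
      (((h.rl_nu 1).mul (Rl.dir (h.rY 0) (h.sm_nu 1) (h.rl_nu 1))).sub
        ((h.rl_nu 0).mul (Rl.dir (h.rY 1) (h.sm_nu 1) (h.rl_nu 1)))) p
    have hB : ((R.nu S 0 p * S.dir (R.Y 1) (R.nu S 0) p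
        - R.nu S 1 p * S.dir (R.Y 0) (R.nu S 0) p) : ℂ).im = 0 :=
      (((h.rl_nu 0).mul (Rl.dir (h.rY 1) (h.sm_nu 0) (h.rl_nu 0))).sub
        ((h.rl_nu 1).mul (Rl.dir (h.rY 0) (h.sm_nu 0) (h.rl_nu 0)))) p
    refine ⟨(R.nu S 1 p * S.dir (R.Y 0) (R.nu S 1) p
        - R.nu S 0 p * S.dir (R.Y 1) (R.nu S 1) p : ℂ).re,
      (R.nu S 0 p * S.dir (R.Y 1) (R.nu S 0) p
        - R.nu S 1 p * S.dir (R.Y 0) (R.nu S 0) p : ℂ).re, ?_⟩
    funext a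
    simp only [rev, DAlg.dirv, Pi.add_apply, Pi.sub_apply, Pi.smul_apply, smul_eq_mul, hx, hy,
      vv, ddv]
    rw [h.dir_ww (hX a) p, Complex.add_re, Complex.add_re, Complex.add_re, Complex.sub_re,
      re_mul_im hA, re_mul_im hB, re_mul_im n1, re_mul_im n1, re_mul_im n0, re_mul_im n1,
      re_mul_im n0, re_mul_im n0, Complex.add_re]
    ring
  rw [e1, e2, e3, gR_comb, gR_add_tan]
  have h1 : (R.N S p).re * ((R.nu S 0 p).re * (R.nu S 0 p).re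
      + (R.nu S 1 p).re * (R.nu S 1 p).re) = 1 := by
    have h2 := congrArg Complex.re (h.N_mul hp)
    rw [re_mul_im nN] at h2
    simp only [RIn.n2, Complex.one_re] at h2
    rwa [Complex.add_re, re_mul_im n0, re_mul_im n1] at h2
  congr 1
  have h3 : R.M⁻¹ * ((R.N S p).re * (R.nu S 0 p).re) * (R.nu S 0 p).re
      - R.M⁻¹ * ((R.N S p).re * (R.nu S 1 p).re) * -(R.nu S 1 p).re = R.M⁻¹ := by
    linear_combination R.M⁻¹ * h1
  rw [h3]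

end Vale.Agent.P205.F
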