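import Vale.Agent.P205.PC.Comp

/-!
The weights of the pieces (P205, full question, block PC).
-/

noncomputable section

open scoped ContDiff
open Set Filter

namespace Vale.Agent.P205.F

variable {P κ : Type*} {S : DAlg P κ}

theorem DAlg.Zs.inter {A B : Set P} {u : P → ℂ} (h : S.Zs A u) (h' : S.Zs B u) :
    S.Zs (A ∩ B) u := fun w p hp => by
  by_cases hA : p ∈ A
  · exact h' w p fun hB => hp ⟨hA, hB⟩
  · exact h w p hA

/-- product of functions supported in two sets -/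
theorem DAlg.Zs.mul_inter {A B : Set P} {u v : P → ℂ} (hu : S.Sm u) (hv : S.Sm v)
    (h : S.Zs A u) (h' : S.Zs B v) : S.Zs (A ∩ B) (u * v) :=
  (h.mul_left hu hv).inter (h'.mul_right hu hv)

section weights

variable {C ι : Type*} {θ : ι → ℝ} (N : ι → C → Fin 3 → Fin 3 → P → ℂ) (ρ : C → P → ℂ)
  (b : ι → ℝ) (Cq : ℝ)

/-- normalised nondegeneracy function -/
def wv (i : ι) (c : C) (τ r : Fin 3) : P → ℂ :=
  fun p => ((2 * Cq / b i ^ 2 : ℝ) : ℂ) * N i c τ r p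

/-- cut-off of one direction -/
def wc (i : ι) (c : C) (τ r : Fin 3) : P → ℂ := fun p => cutF (wv N b Cq i c τ r p).re

/-- cut-off of a triple -/
def wth (i : ι) (c : C) (τ : Fin 3) : P → ℂ :=
  wc N b Cq i c τ 0 * (wc N b Cq i c τ 1 * wc N b Cq i c τ 2)

/-- sum of squares -/
def wq (i : ι) (c : C) : P → ℂ := fun p => ∑ τ, (wth N b Cq i c τ * wth N b Cq i c τ) p

/-- the weights -/
def wχ (i : ι) (c : C) (τ : Fin 3) : P → ℂ :=
  ρ c * (wth N b Cq i c τ * fun p => rsF (wq N b Cq i c p).re)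

variable {N ρ b Cq}

theorem wv_rl (hNr : ∀ i c τ r, Rl (N i c τ r)) (i : ι) (c : C) (τ r : Fin 3) :
    Rl (wv N b Cq i c τ r) := (hNr i c τ r).smul (Complex.ofReal_im _)

theorem wv_re (i : ι) (c : C) (τ r : Fin 3) (p : P) :
    (wv N b Cq i c τ r p).re = 2 * Cq / b i ^ 2 * (N i c τ r p).re := by
  unfold wv
  rw [Complex.re_ofReal_mul]

theorem wv_FO (hb : ∀ i, 1 ≤ b i)
    (hN : ∀ c τ r, S.FO θ (fun i => b i ^ 2) (fun i => N i c τ r)) (c : C) (τ r : Fin 3) :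
    S.FO θ (fun _ => 1) (fun i => wv N b Cq i c τ r) := by
  have h := DAlg.FO.smul (S := S) (c := fun i => ((2 * Cq / b i ^ 2 : ℝ) : ℂ))
    (r := fun i => 1 / b i ^ 2) (C := |2 * Cq|) (fun i => ?_) (fun i => ?_) (hN c τ r)
  · refine h.congr_s fun i => ?_
    have : b i ≠ 0 := by linarith [hb i]
    field_simp
  · rw [Complex.norm_real, Real.norm_eq_abs, abs_div, abs_of_nonneg (sq_nonneg (b i))]
    rw [mul_one_div]
  · positivity

theorem wc_FO (hθ : ∀ i, 1 ≤ θ i) (hb : ∀ i, 1 ≤ b i)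
    (hN : ∀ c τ r, S.FO θ (fun i => b i ^ 2) (fun i => N i c τ r))
    (hNr : ∀ i c τ r, Rl (N i c τ r)) (c : C) (τ r : Fin 3) :
    S.FO θ (fun _ => 1) (fun i => wc N b Cq i c τ r) :=
  DAlg.FO.compc contDiff_cutF (fun i => zero_le_one.trans (hθ i)) (wv_FO hb hN c τ r)
    fun i => wv_rl hNr i c τ r

theorem wc_rl (i : ι) (c : C) (τ r : Fin 3) : Rl (wc N b Cq i c τ r) := fun _ => cutF_im _

theorem wth_rl (i : ι) (c : C) (τ : Fin 3) : Rl (wth N b Cq i c τ) :=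
  (wc_rl i c τ 0).mul ((wc_rl i c τ 1).mul (wc_rl i c τ 2))

theorem wq_rl (i : ι) (c : C) : Rl (wq N b Cq i c) :=
  Rl.sum (A := Finset.univ) (u := fun τ => wth N b Cq i c τ * wth N b Cq i c τ)
    fun τ _ => (wth_rl i c τ).mul (wth_rl i c τ)

theorem wth_FO (hθ : ∀ i, 1 ≤ θ i) (hb : ∀ i, 1 ≤ b i)
    (hN : ∀ c τ r, S.FO θ (fun i => b i ^ 2) (fun i => N i c τ r))
    (hNr : ∀ i c τ r, Rl (N i c τ r)) (c : C) (τ : Fin 3) :
    S.FO θ (fun _ => 1) (fun i => wth N b Cq i c τ) := by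
  have h := fun r => wc_FO (Cq := Cq) hθ hb hN hNr c τ r
  exact ((h 0).mul ((h 1).mul (h 2))).congr_s fun i => by norm_num

theorem wq_FO (hθ : ∀ i, 1 ≤ θ i) (hb : ∀ i, 1 ≤ b i)
    (hN : ∀ c τ r, S.FO θ (fun i => b i ^ 2) (fun i => N i c τ r))
    (hNr : ∀ i c τ r, Rl (N i c τ r)) (c : C) :
    S.FO θ (fun _ => 1) (fun i => wq N b Cq i c) := by
  have h := fun τ => wth_FO (Cq := Cq) hθ hb hN hNr c τ
  have h2 := DAlg.FO.sum' (S := S) (A := (Finset.univ : Finset (Fin 3)))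
    (u := fun τ i => wth N b Cq i c τ * wth N b Cq i c τ)
    fun τ _ => ((h τ).mul (h τ)).congr_s (s' := fun _ => 1) fun i => by norm_num
  exact h2

theorem wχ_FO [Finite κ] (hθ : ∀ i, 1 ≤ θ i) (hb : ∀ i, 1 ≤ b i)
    (hN : ∀ c τ r, S.FO θ (fun i => b i ^ 2) (fun i => N i c τ r))
    (hNr : ∀ i c τ r, Rl (N i c τ r)) (hρ : ∀ c, S.Sm (ρ c)) (c : C) (τ : Fin 3) :
    S.FO θ (fun _ => 1) (fun i => wχ N ρ b Cq i c τ) := by
  have h1 := DAlg.FO.fixed (ι := ι) hθ (hρ c)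
  have h2 := wth_FO (Cq := Cq) hθ hb hN hNr c τ
  have h3 := DAlg.FO.compc contDiff_rsF (fun i => zero_le_one.trans (hθ i))
    (wq_FO (Cq := Cq) hθ hb hN hNr c) fun i => wq_rl i c
  exact (h1.mul (h2.mul h3)).congr_s fun i => by norm_num

theorem wχ_rl (hρr : ∀ c, Rl (ρ c)) (i : ι) (c : C) (τ : Fin 3) : Rl (wχ N ρ b Cq i c τ) :=
  (hρr c).mul ((wth_rl i c τ).mul fun _ => rsF_im _)

theorem wc_Zs (hb : ∀ i, 1 ≤ b i) (hN : ∀ i c τ r, S.Sm (N i c τ r))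
    (hNr : ∀ i c τ r, Rl (N i c τ r)) (hC : 0 < Cq) (i : ι) (c : C) (τ r : Fin 3) :
    S.Zs {p | b i ^ 2 / (2 * Cq) ≤ (N i c τ r p).re} (wc N b Cq i c τ r) := by
  refine DAlg.Zs.comp contDiff_cutF (S.sm_smul _ (hN i c τ r)) (wv_rl hNr i c τ r)
    fun p hp n => cutF_zero ?_ n
  have hp : ¬ b i ^ 2 / (2 * Cq) ≤ (N i c τ r p).re := hp
  rw [not_le] at hp
  rw [wv_re]
  have hb2 : 0 < b i ^ 2 := pow_pos (zero_lt_one.trans_le (hb i)) 2
  rw [lt_div_iff₀ (by positivity)] at hp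
  rw [div_mul_eq_mul_div, div_le_one hb2]
  nlinarith

theorem wχ_Zs (hb : ∀ i, 1 ≤ b i) (hN : ∀ i c τ r, S.Sm (N i c τ r))
    (hNr : ∀ i c τ r, Rl (N i c τ r)) {K : C → Set P} (hρ : ∀ c, S.Sm (ρ c))
    (hρz : ∀ c, S.Zs (K c) (ρ c)) (hC : 0 < Cq) (i : ι) (c : C) (τ : Fin 3) :
    S.Zs (K c ∩ {p | ∀ r, b i ^ 2 / (2 * Cq) ≤ (N i c τ r p).re}) (wχ N ρ b Cq i c τ) := by
  have hsc : ∀ r, S.Sm (wc N b Cq i c τ r) := fun r =>
    S.sm_comp contDiff_cutF (S.sm_smul _ (hN i c τ r)) (wv_rl hNr i c τ r)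
  have hsth : ∀ τ, S.Sm (wth N b Cq i c τ) := fun τ => by
    have hsc : ∀ r, S.Sm (wc N b Cq i c τ r) := fun r =>
      S.sm_comp contDiff_cutF (S.sm_smul _ (hN i c τ r)) (wv_rl hNr i c τ r)
    exact S.sm_mul (hsc 0) (S.sm_mul (hsc 1) (hsc 2))
  have hsq : S.Sm (wq N b Cq i c) :=
    S.sm_sum' (A := Finset.univ) (u := fun τ => wth N b Cq i c τ * wth N b Cq i c τ)
      fun τ _ => S.sm_mul (hsth τ) (hsth τ)
  have hsr : S.Sm (fun p => rsF (wq N b Cq i c p).re) := S.sm_comp contDiff_rsF hsq (wq_rl i c)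
  have hz := fun r => wc_Zs (τ := τ) hb hN hNr hC i c r
  have h1 : S.Zs ({p | b i ^ 2 / (2 * Cq) ≤ (N i c τ 0 p).re} ∩
      ({p | b i ^ 2 / (2 * Cq) ≤ (N i c τ 1 p).re} ∩
      {p | b i ^ 2 / (2 * Cq) ≤ (N i c τ 2 p).re})) (wth N b Cq i c τ) :=
    (hz 0).mul_inter (hsc 0) (S.sm_mul (hsc 1) (hsc 2))
      ((hz 1).mul_inter (hsc 1) (hsc 2) (hz 2))
  have h2 := (hρz c).mul_inter (hρ c) (S.sm_mul (hsth τ) hsr) (h1.mul_left (hsth τ) hsr)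
  refine h2.mono ?_
  rintro p ⟨hp, h3, h4, h5⟩
  refine ⟨hp, fun r => ?_⟩
  fin_cases r
  · exact h3
  · exact h4
  · exact h5

theorem wχ_sum (hb : ∀ i, 1 ≤ b i) (hC : 0 < Cq)
    (hex : ∀ i c p, ρ c p ≠ 0 → ∃ τ, ∀ r, b i ^ 2 / Cq ≤ (N i c τ r p).re) (i : ι) (c : C)
    (p : P) : ∑ τ, wχ N ρ b Cq i c τ p ^ 2 = ρ c p ^ 2 := by
  by_cases h0 : ρ c p = 0
  · rw [h0]
    refine (Finset.sum_eq_zero fun τ _ => ?_).trans (by norm_num)
    unfold wχ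
    rw [Pi.mul_apply, h0, zero_mul]
    norm_num
  · obtain ⟨τ0, hτ⟩ := hex i c p h0
    have hb2 : 0 < b i ^ 2 := pow_pos (zero_lt_one.trans_le (hb i)) 2
    have hone : wth N b Cq i c τ0 p = 1 := by
      have h1 : ∀ r, wc N b Cq i c τ0 r p = 1 := fun r => by
        refine cutF_one ?_
        rw [wv_re]
        have h2 := hτ r
        rw [div_le_iff₀ hC] at h2
        rw [div_mul_eq_mul_div, le_div_iff₀ hb2]
        nlinarith
      unfold wth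
      rw [Pi.mul_apply, Pi.mul_apply, h1, h1, h1]
      norm_num
    have hqr : (wq N b Cq i c p).re = ∑ τ, (wth N b Cq i c τ p).re ^ 2 := by
      unfold wq
      rw [Complex.re_sum]
      refine Finset.sum_congr rfl fun τ _ => ?_
      rw [Pi.mul_apply, Complex.mul_re, wth_rl i c τ p]
      ring
    have hq1 : 1 ≤ (wq N b Cq i c p).re := by
      rw [hqr]
      have h2 := Finset.single_le_sum (f := fun τ => (wth N b Cq i c τ p).re ^ 2)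
        (fun τ _ => sq_nonneg _) (Finset.mem_univ τ0)
      simp only [hone, Complex.one_re, one_pow] at h2
      exact h2
    have hrs := rsF_sq (v := (wq N b Cq i c p).re) (by linarith)
    rw [(wq_rl i c).ofReal_re p] at hrs
    have e1 : ∀ τ, wχ N ρ b Cq i c τ p ^ 2 = ρ c p ^ 2 * (rsF (wq N b Cq i c p).re ^ 2
        * (wth N b Cq i c τ p * wth N b Cq i c τ p)) := fun τ => by
      unfold wχ
      simp only [Pi.mul_apply]
      ring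
    rw [Finset.sum_congr rfl fun τ _ => e1 τ, ← Finset.mul_sum, ← Finset.mul_sum]
    have e2 : ∑ τ, wth N b Cq i c τ p * wth N b Cq i c τ p = wq N b Cq i c p := rfl
    rw [e2, hrs, mul_one]

end weights

/-- **weights**: a smooth partition of `ρ²` according to good triples -/
theorem DAlg.weights [Finite κ] {C ι : Type*} {θ b : ι → ℝ} (hθ : ∀ i, 1 ≤ θ i)
    (hb : ∀ i, 1 ≤ b i) {N : ι → C → Fin 3 → Fin 3 → P → ℂ}
    (hN : ∀ c τ r, S.FO θ (fun i => b i ^ 2) (fun i => N i c τ r))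
    (hNr : ∀ i c τ r, Rl (N i c τ r)) {ρ : C → P → ℂ} {K : C → Set P}
    (hρ : ∀ c, S.Sm (ρ c)) (hρr : ∀ c, Rl (ρ c)) (hρz : ∀ c, S.Zs (K c) (ρ c)) {Cq : ℝ}
    (hC : 0 < Cq)
    (hex : ∀ i c p, ρ c p ≠ 0 → ∃ τ, ∀ r, b i ^ 2 / Cq ≤ (N i c τ r p).re) :
    ∃ χ : ι → C → Fin 3 → P → ℂ, (∀ c τ, S.FO θ (fun _ => 1) (fun i => χ i c τ)) ∧
      (∀ i c τ, Rl (χ i c τ)) ∧
      (∀ i c τ, S.Zs (K c ∩ {p | ∀ r, b i ^ 2 / (2 * Cq) ≤ (N i c τ r p).re}) (χ i c τ)) ∧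
      ∀ i c p, ∑ τ, χ i c τ p ^ 2 = ρ c p ^ 2 :=
  ⟨wχ N ρ b Cq, wχ_FO hθ hb hN hNr hρ, wχ_rl hρr,
    wχ_Zs hb (fun i c τ r => (hN c τ r).1 i) hNr hρ hρz hC, wχ_sum hb hC hex⟩

end Vale.Agent.P205.F
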