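import Vale.Agent.P205.PC.Dec

/-!
The cut-offs of the pieces (P205, full question, block PC).
-/

noncomputable section

namespace Vale.Agent.P205.F

open scoped ContDiff
open Vale.Agent.P205.PC

universe u

variable {P : Type u} {κ : Type} [Fintype κ] {S : DAlg P κ}

/-! ### bounds -/

section bounds

variable {ι : Type*} {μ s b : ι → ℝ}

theorem DAlg.FO.dirY (hμ : ∀ i, 1 ≤ μ i) {Y : κ → P → ℂ} (hY : ∀ j, S.Sm (Y j))
    {u : ι → P → ℂ} (hu : ∀ j, S.FO μ s (fun i => S.D j (u i))) :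
    S.FO μ s (fun i => S.dir Y (u i)) := by
  have h := DAlg.FO.sum' (S := S) (μ := μ) (s := fun i => 1 * s i)
    (A := (Finset.univ : Finset κ)) (u := fun j i => Y j * S.D j (u i))
    fun j _ => (DAlg.FO.fixed hμ (hY j)).mul (hu j)
  exact h.congr_s fun i => by ring

theorem DAlg.FO.D_dirY (hμ : ∀ i, 1 ≤ μ i) (hb : ∀ i, 1 ≤ b i) {Y : κ → P → ℂ}
    (hY : ∀ j, S.Sm (Y j)) {u : ι → P → ℂ} (hsm : ∀ i, S.Sm (u i))
    (hu : ∀ j, S.FO μ (fun _ => 1) (fun i => S.D j (u i)))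
    (huu : ∀ j k, S.FO μ b (fun i => S.D j (S.D k (u i)))) (k : κ) :
    S.FO μ b (fun i => S.D k (S.dir Y (u i))) := by
  have hμ0 : ∀ i, 0 ≤ μ i := fun i => zero_le_one.trans (hμ i)
  have h1 := (DAlg.FO.dirY hμ (fun j => S.sm_D k (hY j)) hu).mono_s' hb hμ0
  have h2 := DAlg.FO.sum' (S := S) (μ := μ) (s := fun i => 1 * b i)
    (A := (Finset.univ : Finset κ)) (u := fun j i => Y j * S.D k (S.D j (u i)))
    fun j _ => (DAlg.FO.fixed hμ (hY j)).mul (huu k j)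
  refine (h1.add (h2.congr_s fun i => one_mul (b i))).congr fun i p => ?_
  rw [S.D_dir k hY (hsm i) p]
  rfl

theorem DAlg.FO.gram3 {X Y Z : ι → Fin 4 → P → ℂ}
    (hX : ∀ a, S.FO μ (fun _ => 1) (fun i => X i a))
    (hY : ∀ a, S.FO μ (fun _ => 1) (fun i => Y i a))
    (hZ : ∀ a, S.FO μ b (fun i => Z i a)) :
    S.FO μ (fun i => b i ^ 2) (fun i => gram3 (X i) (Y i) (Z i)) := by
  have xx := (DAlg.FO.dot hX hX).congr_s (s' := fun _ => 1) fun i => by ring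
  have yy := (DAlg.FO.dot hY hY).congr_s (s' := fun _ => 1) fun i => by ring
  have xy := (DAlg.FO.dot hX hY).congr_s (s' := fun _ => 1) fun i => by ring
  have xz := (DAlg.FO.dot hX hZ).congr_s (s' := b) fun i => by ring
  have yz := (DAlg.FO.dot hY hZ).congr_s (s' := b) fun i => by ring
  have zz := (DAlg.FO.dot hZ hZ).congr_s (s' := fun i => b i ^ 2) fun i => by ring
  have a1 := (yy.mul zz).congr_s (s' := fun i => b i ^ 2) fun i => by ring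
  have a2 := (yz.mul yz).congr_s (s' := fun i => b i ^ 2) fun i => by ring
  have b1 := (xy.mul zz).congr_s (s' := fun i => b i ^ 2) fun i => by ring
  have b2 := (yz.mul xz).congr_s (s' := fun i => b i ^ 2) fun i => by ring
  have c1 := (xy.mul yz).congr_s (s' := b) fun i => by ring
  have c2 := (yy.mul xz).congr_s (s' := b) fun i => by ring
  have a := (xx.mul (a1.sub a2)).congr_s (s' := fun i => b i ^ 2) fun i => by ring
  have b' := (xy.mul (b1.sub b2)).congr_s (s' := fun i => b i ^ 2) fun i => by ring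
  have c := (xz.mul (c1.sub c2)).congr_s (s' := fun i => b i ^ 2) fun i => by ring
  exact (a.sub b').add c

end bounds

/-! ### the Gram determinant of a direction -/

/-- the second derivative along the kernel direction of the covector `l` -/
def vvc (S : DAlg P κ) (Y : Fin 2 → κ → P → ℂ) (f : Fin 4 → P → ℂ) (l : Fin 2 → ℝ) :
    Fin 4 → P → ℂ :=
  fun a p => ((l 1 ^ 2 : ℝ) : ℂ) * S.dir (Y 0) (S.dir (Y 0) (f a)) p
    - ((l 0 * l 1 : ℝ) : ℂ) * (S.dir (Y 0) (S.dir (Y 1) (f a)) p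
      + S.dir (Y 1) (S.dir (Y 0) (f a)) p)
    + ((l 0 ^ 2 : ℝ) : ℂ) * S.dir (Y 1) (S.dir (Y 1) (f a)) p

/-- the Gram determinant of `X₀, X₁` and the second derivative -/
def qg (S : DAlg P κ) (Y : Fin 2 → κ → P → ℂ) (f : Fin 4 → P → ℂ) (l : Fin 2 → ℝ) : P → ℂ :=
  gram3 (S.dirv (Y 0) f) (S.dirv (Y 1) f) (vvc S Y f l)

section qgs

variable {Y : Fin 2 → κ → P → ℂ} {f : Fin 4 → P → ℂ} (hY : ∀ i j, S.Sm (Y i j))
  (hYr : ∀ i j, Rl (Y i j)) (hf : ∀ a, S.Sm (f a)) (hr : ∀ a, Rl (f a)) (l : Fin 2 → ℝ)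

include hY hf in
theorem sm_vvc (a : Fin 4) : S.Sm (vvc S Y f l a) := by
  have s0 := S.sm_dir (hY 0) (hf a)
  have s1 := S.sm_dir (hY 1) (hf a)
  exact S.sm_add (S.sm_sub (S.sm_smul _ (S.sm_dir (hY 0) s0))
    (S.sm_smul _ (S.sm_add (S.sm_dir (hY 0) s1) (S.sm_dir (hY 1) s0))))
    (S.sm_smul _ (S.sm_dir (hY 1) s1))

include hY hYr hf hr in
theorem rl_vvc (a : Fin 4) : Rl (vvc S Y f l a) := by
  have s0 := S.sm_dir (hY 0) (hf a)
  have s1 := S.sm_dir (hY 1) (hf a)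
  have r0 := Rl.dir (hYr 0) (hf a) (hr a)
  have r1 := Rl.dir (hYr 1) (hf a) (hr a)
  exact ((Rl.smul (Complex.ofReal_im _) (Rl.dir (hYr 0) s0 r0)).sub
    (Rl.smul (Complex.ofReal_im _) ((Rl.dir (hYr 0) s1 r1).add (Rl.dir (hYr 1) s0 r0)))).add
    (Rl.smul (Complex.ofReal_im _) (Rl.dir (hYr 1) s1 r1))

theorem DAlg.sm_gram3 {X Y Z : Fin 4 → P → ℂ} (hX : ∀ a, S.Sm (X a)) (hY : ∀ a, S.Sm (Y a))
    (hZ : ∀ a, S.Sm (Z a)) : S.Sm (gram3 X Y Z) := by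
  have xx := S.sm_dot hX hX
  have yy := S.sm_dot hY hY
  have zz := S.sm_dot hZ hZ
  have xy := S.sm_dot hX hY
  have xz := S.sm_dot hX hZ
  have yz := S.sm_dot hY hZ
  exact S.sm_add (S.sm_sub (S.sm_mul xx (S.sm_sub (S.sm_mul yy zz) (S.sm_mul yz yz)))
    (S.sm_mul xy (S.sm_sub (S.sm_mul xy zz) (S.sm_mul yz xz))))
    (S.sm_mul xz (S.sm_sub (S.sm_mul xy yz) (S.sm_mul yy xz)))

theorem Rl.gram3 {X Y Z : Fin 4 → P → ℂ} (hX : ∀ a, Rl (X a)) (hY : ∀ a, Rl (Y a))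
    (hZ : ∀ a, Rl (Z a)) : Rl (gram3 X Y Z) := by
  have xx := Rl.dot hX hX
  have yy := Rl.dot hY hY
  have zz := Rl.dot hZ hZ
  have xy := Rl.dot hX hY
  have xz := Rl.dot hX hZ
  have yz := Rl.dot hY hZ
  exact ((xx.mul ((yy.mul zz).sub (yz.mul yz))).sub (xy.mul ((xy.mul zz).sub (yz.mul xz)))).add
    (xz.mul ((xy.mul yz).sub (yy.mul xz)))

include hY hf in
theorem sm_qg : S.Sm (qg S Y f l) :=
  DAlg.sm_gram3 (fun a => S.sm_dir (hY 0) (hf a)) (fun a => S.sm_dir (hY 1) (hf a))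
    (sm_vvc hY hf l)

include hY hYr hf hr in
theorem rl_qg : Rl (qg S Y f l) :=
  Rl.gram3 (fun a => Rl.dir (hYr 0) (hf a) (hr a)) (fun a => Rl.dir (hYr 1) (hf a) (hr a))
    (rl_vvc hY hYr hf hr l)

include hY hYr hf hr in
theorem qg_re (p : P) : (qg S Y f l p).re =
    gR (rev (S.dirv (Y 0) f) p) (rev (S.dirv (Y 1) f) p) (vv (ddv S Y f p) l) := by
  have r0 : ∀ a, Rl (S.dirv (Y 0) f a) := fun a => Rl.dir (hYr 0) (hf a) (hr a)
  have r1 : ∀ a, Rl (S.dirv (Y 1) f a) := fun a => Rl.dir (hYr 1) (hf a) (hr a)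
  rw [qg, gram3_rev r0 r1 (rl_vvc hY hYr hf hr l)]
  congr 1
  funext a
  simp only [rev, vvc, vv, ddv, DAlg.dirv, Pi.add_apply, Pi.sub_apply, Pi.smul_apply,
    smul_eq_mul]
  rw [Complex.add_re, Complex.sub_re, Complex.re_ofReal_mul, Complex.re_ofReal_mul,
    Complex.re_ofReal_mul, Complex.add_re]

end qgs

section qgb

variable {ι : Type*} {μ b : ι → ℝ} (hμ : ∀ i, 1 ≤ μ i) (hb : ∀ i, 1 ≤ b i)
  {Y : Fin 2 → κ → P → ℂ} (hY : ∀ i j, S.Sm (Y i j)) {f : ι → Fin 4 → P → ℂ}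
  (hf : ∀ i a, S.Sm (f i a))
  (h1 : ∀ j a, S.FO μ (fun _ => 1) (fun i => S.D j (f i a)))
  (h2 : ∀ j k a, S.FO μ b (fun i => S.D j (S.D k (f i a))))

include hμ hY h1 in
theorem fo_dirv (m : Fin 2) (a : Fin 4) :
    S.FO μ (fun _ => 1) (fun i => S.dirv (Y m) (f i) a) :=
  DAlg.FO.dirY hμ (hY m) fun j => h1 j a

include hμ hb hY hf h1 h2 in
theorem fo_ddv (m n : Fin 2) (a : Fin 4) :
    S.FO μ b (fun i => S.dir (Y m) (S.dir (Y n) (f i a))) :=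
  DAlg.FO.dirY hμ (hY m) fun k => DAlg.FO.D_dirY hμ hb (hY n) (fun i => hf i a)
    (fun j => h1 j a) (fun j k => h2 j k a) k

include hμ hb hY hf h1 h2 in
theorem fo_vvc (l : Fin 2 → ℝ) (a : Fin 4) : S.FO μ b (fun i => vvc S Y (f i) l a) :=
  ((DAlg.FO.const_mul _ (fo_ddv hμ hb hY hf h1 h2 0 0 a)).sub
    (DAlg.FO.const_mul _ ((fo_ddv hμ hb hY hf h1 h2 0 1 a).add
      (fo_ddv hμ hb hY hf h1 h2 1 0 a)))).add
    (DAlg.FO.const_mul _ (fo_ddv hμ hb hY hf h1 h2 1 1 a))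

include hμ hb hY hf h1 h2 in
theorem fo_qg (l : Fin 2 → ℝ) : S.FO μ (fun i => b i ^ 2) (fun i => qg S Y (f i) l) :=
  DAlg.FO.gram3 (fun a => fo_dirv hμ hY h1 0 a) (fun a => fo_dirv hμ hY h1 1 a)
    (fun a => fo_vvc hμ hb hY hf h1 h2 l a)

end qgb

/-! ### the cut-offs -/

/-- cut-off of a direction -/
def cu (S : DAlg P κ) (Y : Fin 2 → κ → P → ℂ) (f : Fin 4 → P → ℂ) (A : ℝ) (τ r : Fin 3) :
    P → ℂ :=
  fun p => cutF ((A : ℂ) * qg S Y f (dl τ r) p).re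

/-- cut-off of a triple -/
def th (S : DAlg P κ) (Y : Fin 2 → κ → P → ℂ) (f : Fin 4 → P → ℂ) (A : ℝ) (τ : Fin 3) :
    P → ℂ :=
  cu S Y f A τ 0 * (cu S Y f A τ 1 * cu S Y f A τ 2)

/-- the sum of the squares -/
def den (S : DAlg P κ) (Y : Fin 2 → κ → P → ℂ) (f : Fin 4 → P → ℂ) (A : ℝ) : P → ℂ :=
  th S Y f A 0 * th S Y f A 0 + (th S Y f A 1 * th S Y f A 1 + th S Y f A 2 * th S Y f A 2)

/-- the weight of a triple -/
def wt (S : DAlg P κ) (Y : Fin 2 → κ → P → ℂ) (f : Fin 4 → P → ℂ) (A : ℝ) (τ : Fin 3) :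
    P → ℂ :=
  th S Y f A τ * fun p => rsF (den S Y f A p).re

section cut

variable {Y : Fin 2 → κ → P → ℂ} {f : Fin 4 → P → ℂ} (hY : ∀ i j, S.Sm (Y i j))
  (hYr : ∀ i j, Rl (Y i j)) (hf : ∀ a, S.Sm (f a)) (hr : ∀ a, Rl (f a)) (A : ℝ)

include hY hYr hf hr in
theorem sm_cu (τ r : Fin 3) : S.Sm (cu S Y f A τ r) :=
  S.sm_comp contDiff_cutF (S.sm_smul _ (sm_qg hY hf _))
    (Rl.smul (Complex.ofReal_im _) (rl_qg hY hYr hf hr _))

theorem rl_cu (τ r : Fin 3) : Rl (cu S Y f A τ r) := fun _ => cutF_im _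

include hY hYr hf hr in
theorem sm_th (τ : Fin 3) : S.Sm (th S Y f A τ) :=
  S.sm_mul (sm_cu hY hYr hf hr A τ 0) (S.sm_mul (sm_cu hY hYr hf hr A τ 1)
    (sm_cu hY hYr hf hr A τ 2))

theorem rl_th (τ : Fin 3) : Rl (th S Y f A τ) :=
  (rl_cu A τ 0).mul ((rl_cu A τ 1).mul (rl_cu A τ 2))

include hY hYr hf hr in
theorem sm_den : S.Sm (den S Y f A) :=
  S.sm_add (S.sm_mul (sm_th hY hYr hf hr A 0) (sm_th hY hYr hf hr A 0))
    (S.sm_add (S.sm_mul (sm_th hY hYr hf hr A 1) (sm_th hY hYr hf hr A 1))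
      (S.sm_mul (sm_th hY hYr hf hr A 2) (sm_th hY hYr hf hr A 2)))

theorem rl_den : Rl (den S Y f A) :=
  ((rl_th A 0).mul (rl_th A 0)).add
    (((rl_th A 1).mul (rl_th A 1)).add ((rl_th A 2).mul (rl_th A 2)))

include hY hYr hf hr in
theorem sm_wt (τ : Fin 3) : S.Sm (wt S Y f A τ) :=
  S.sm_mul (sm_th hY hYr hf hr A τ) (S.sm_comp contDiff_rsF (sm_den hY hYr hf hr A) (rl_den A))

theorem rl_wt (τ : Fin 3) : Rl (wt S Y f A τ) := (rl_th A τ).mul fun _ => rsF_im _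

include hY hYr hf hr in
theorem zs_wt (τ r : Fin 3) :
    S.Zs {p | 1 ≤ A * (qg S Y f (dl τ r) p).re} (wt S Y f A τ) := by
  have h0 : ∀ r, S.Zs {p | 1 ≤ A * (qg S Y f (dl τ r) p).re} (cu S Y f A τ r) := fun r => by
    refine DAlg.Zs.comp contDiff_cutF (S.sm_smul _ (sm_qg hY hf _))
      (Rl.smul (Complex.ofReal_im _) (rl_qg hY hYr hf hr _)) fun p hp n => ?_
    refine cutF_zero ?_ n
    rw [Complex.re_ofReal_mul]
    exact (not_le.mp hp).le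
  have sc := sm_cu hY hYr hf hr A τ
  have h1 : S.Zs {p | 1 ≤ A * (qg S Y f (dl τ r) p).re} (th S Y f A τ) := by
    have e : r = 0 ∨ r = 1 ∨ r = 2 := by fin_cases r <;> simp
    rcases e with rfl | rfl | rfl
    · exact DAlg.Zs.mul_left (sc 0) (S.sm_mul (sc 1) (sc 2)) (h0 0)
    · exact DAlg.Zs.mul_right (sc 0) (S.sm_mul (sc 1) (sc 2))
        (DAlg.Zs.mul_left (sc 1) (sc 2) (h0 1))
    · exact DAlg.Zs.mul_right (sc 0) (S.sm_mul (sc 1) (sc 2))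
        (DAlg.Zs.mul_right (sc 1) (sc 2) (h0 2))
  exact DAlg.Zs.mul_left (sm_th hY hYr hf hr A τ)
    (S.sm_comp contDiff_rsF (sm_den hY hYr hf hr A) (rl_den A)) h1

/-- a good triple: the weights are a partition of unity -/
theorem wt_sum {p : P} (h : ∃ τ, ∀ r, 2 ≤ A * (qg S Y f (dl τ r) p).re) :
    ∑ τ, wt S Y f A τ p ^ 2 = 1 := by
  obtain ⟨τ, h⟩ := h
  have hth : th S Y f A τ p = 1 := by
    simp only [th, Pi.mul_apply, cu, Complex.re_ofReal_mul]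
    rw [cutF_one (h 0), cutF_one (h 1), cutF_one (h 2)]
    norm_num
  have hre : ∀ σ, (th S Y f A σ p * th S Y f A σ p).re = (th S Y f A σ p).re ^ 2 := fun σ => by
    rw [re_mul_im (rl_th A σ p), sq]
  have hd : (den S Y f A p).re = (th S Y f A 0 p).re ^ 2 + ((th S Y f A 1 p).re ^ 2
      + (th S Y f A 2 p).re ^ 2) := by
    simp only [den, Pi.add_apply, Pi.mul_apply, Complex.add_re, hre]
  have hden : 1 ≤ (den S Y f A p).re := by
    rw [hd]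
    have e : τ = 0 ∨ τ = 1 ∨ τ = 2 := by fin_cases τ <;> simp
    have h0 := sq_nonneg (th S Y f A 0 p).re
    have h1 := sq_nonneg (th S Y f A 1 p).re
    have h2 := sq_nonneg (th S Y f A 2 p).re
    rcases e with rfl | rfl | rfl <;> rw [hth] <;> simp only [Complex.one_re] <;> linarith
  have h3 := rsF_sq (by linarith : (1:ℝ) / 2 ≤ (den S Y f A p).re)
  have h4 : (((den S Y f A p).re : ℝ) : ℂ) = den S Y f A p := (rl_den A).ofReal_re p
  rw [h4] at h3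
  rw [← h3, Fin.sum_univ_three]
  simp only [wt, den, Pi.add_apply, Pi.mul_apply]
  ring

end cut

section cutb

variable {ι : Type*} {μ b : ι → ℝ} (hμ : ∀ i, 1 ≤ μ i) (hb : ∀ i, 1 ≤ b i)
  {Y : Fin 2 → κ → P → ℂ} (hY : ∀ i j, S.Sm (Y i j)) (hYr : ∀ i j, Rl (Y i j))
  {f : ι → Fin 4 → P → ℂ}
  (hf : ∀ i a, S.Sm (f i a)) (hr : ∀ i a, Rl (f i a))
  (h1 : ∀ j a, S.FO μ (fun _ => 1) (fun i => S.D j (f i a)))
  (h2 : ∀ j k a, S.FO μ b (fun i => S.D j (S.D k (f i a)))) (A : ℝ) (hA : 0 ≤ A)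

include hμ hb hY hYr hf hr h1 h2 hA in
theorem fo_cu (τ r : Fin 3) :
    S.FO μ (fun _ => 1) (fun i => cu S Y (f i) (A / b i ^ 2) τ r) := by
  have hμ0 : ∀ i, 0 ≤ μ i := fun i => zero_le_one.trans (hμ i)
  have hb0 : ∀ i, 0 < b i := fun i => zero_lt_one.trans_le (hb i)
  have h3 := DAlg.FO.real_mul (r := fun i => A / b i ^ 2)
    (fun i => div_nonneg hA (sq_nonneg _)) (fo_qg hμ hb hY hf h1 h2 (dl τ r))
  have h4 : S.FO μ (fun _ => 1)
      (fun i p => ((A / b i ^ 2 : ℝ) : ℂ) * qg S Y (f i) (dl τ r) p) :=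
    h3.mono_s (C := A) (fun i => by
      have := (hb0 i).ne'
      simp only [mul_one]
      rw [div_mul_cancel₀]
      positivity) (fun _ => zero_le_one) hμ0
  exact DAlg.FO.compc contDiff_cutF hμ0 h4
    fun i => Rl.smul (Complex.ofReal_im _) (rl_qg hY hYr (hf i) (hr i) _)

include hμ hb hY hYr hf hr h1 h2 hA in
theorem fo_th (τ : Fin 3) : S.FO μ (fun _ => 1) (fun i => th S Y (f i) (A / b i ^ 2) τ) := by
  have h := fo_cu hμ hb hY hYr hf hr h1 h2 A hA τ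
  exact ((h 0).mul ((h 1).mul (h 2))).congr_s fun i => by ring

include hμ hb hY hYr hf hr h1 h2 hA in
theorem fo_wt (τ : Fin 3) : S.FO μ (fun _ => 1) (fun i => wt S Y (f i) (A / b i ^ 2) τ) := by
  have hμ0 : ∀ i, 0 ≤ μ i := fun i => zero_le_one.trans (hμ i)
  have h := fo_th hμ hb hY hYr hf hr h1 h2 A hA
  have hd : S.FO μ (fun _ => 1) (fun i => den S Y (f i) (A / b i ^ 2)) := by
    have h0 := ((h 0).mul (h 0)).congr_s (s' := fun _ => 1) fun i => by ring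
    have h1 := ((h 1).mul (h 1)).congr_s (s' := fun _ => 1) fun i => by ring
    have h2 := ((h 2).mul (h 2)).congr_s (s' := fun _ => 1) fun i => by ring
    exact h0.add (h1.add h2)
  exact ((h τ).mul (DAlg.FO.compc contDiff_rsF hμ0 hd fun i => rl_den _)).congr_s
    fun i => by ring

end cutb

end Vale.Agent.P205.F
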